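import Crest.Agent.N336.Q.Swp

/-!
# Row 336: the entropy library `EntStmt` (helper34)
-/

set_option autoImplicit false

open Matrix Finset
open scoped ComplexOrder MatrixOrder Matrix.Norms.L2Operator InnerProductSpace

namespace Crest.Agent.N336

open Q

theorem S_eq {Λ : Type} [Fintype Λ] [DecidableEq Λ] {q : ℕ} (Ω : Vec Λ q) (A : Finset Λ) :
    S Ω A = SX (d := fun _ => Fin q) A (pj Ω) := entanglementEntropy_eq Ω A

theorem ent : EntStmt := by
  intro q Λ _ _ Ω hΩ
  have hne : Nonempty (Λ → Fin q) := by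
    by_contra h
    rw [not_nonempty_iff] at h
    rw [Subsingleton.elim Ω 0] at hΩ
    simp at hΩ
  have inst : ∀ _ : Λ, Nonempty (Fin q) := fun x => hne.map fun σ => σ x
  have hw : Dens (pj Ω) := dens_pj hΩ
  have hdim : ∀ {ι : Type} [Fintype ι] [DecidableEq ι] (A : Finset ι),
      Real.log (dim (fun _ : ι => Fin q) A) = A.card * Real.log q := fun A => by
    rw [dim_const, Fintype.card_fin, Nat.cast_pow, Real.log_pow]
  have h2 : ∀ A : Finset Λ, 0 ≤ S Ω A ∧ S Ω A ≤ A.card * Real.log q := fun A => by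
    rw [S_eq, ← hdim]
    exact ⟨hw.SX_nonneg (d := fun _ => Fin q) A, hw.SX_le (d := fun _ => Fin q) A⟩
  refine ⟨fun A => ?_, h2, fun A B => ?_, fun A F ε hd hε ⟨U, hU, hs, hle⟩ => ?_⟩
  · rw [S_eq, S_eq, SX_compl]
  · simp only [S_eq]
    exact SX_submod (d := fun _ => Fin q) A B hw.psd
  have hL : 0 ≤ A.card * Real.log q := (h2 A).1.trans (h2 A).2
  have hsq := Real.sqrt_nonneg ε
  rcases le_total 1 ε with h1 | h1
  · have a1 := (abs_le.1 (abs_cond_le_dim (d := fun _ => Fin q) hd hw)).1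
    have a2 := (h2 A).2
    have a3 : 1 ≤ Real.sqrt ε := Real.one_le_sqrt.2 h1
    rw [hdim, ← S_eq, ← S_eq] at a1
    unfold MI
    nlinarith
  rcases isEmpty_or_nonempty Λ with hΛ | ⟨⟨x⟩⟩
  · have h0 : ∀ B : Finset Λ, S Ω B = 0 := fun B => by
      rw [S_eq, Subsingleton.elim B ∅]; exact hw.SX_empty (d := fun _ => Fin q)
    simp only [MI, h0]
    nlinarith
  have := inst x
  have hUU : Uᴴ * U = 1 := (Matrix.mem_unitaryGroup_iff').1 hU
  have hS : Supp (d := fun _ => Fin q) ((A ∪ F).map (sh false))ᶜ U :=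
    (isSupportedOn_iff.1 hs).mono fun p hp => by
      simp only [mem_filter, mem_univ, true_and] at hp
      simp only [mem_compl, mem_map, mem_union, sh_apply]
      rintro ⟨y, hy, rfl⟩
      tauto
  have n1 : ‖ap U (swp ∅ Ω)‖ = 1 := by rw [norm_ap_unitary hUU, norm_swp _ hΩ]
  have key := afw_dim (d := fun _ => Fin q) (X := A.map (sh false)) (Y := F.map (sh false))
    ((disjoint_map _).2 hd) (dens_pj (norm_swp A hΩ)) (dens_pj n1) (ε := ε) fun O _ _ hO =>
      (re_inner_sub_le (norm_swp A hΩ).le n1.le hO).trans (by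
        rw [norm_sub_rev]
        exact mul_le_mul_of_nonneg_left hle zero_le_two)
  have b1 := SX_swp (Subset.refl A) (le_compl_iff_disjoint_left.2 hd) hΩ
  have b2 := SX_swp (empty_subset A) (le_compl_iff_disjoint_left.2 hd) hΩ
  have b3 := SX_swp (Subset.refl ∅) (F := A ∪ F) (by simp) hΩ
  have b4 := SX_swp (Subset.refl ∅) (F := F) (by simp) hΩ
  rw [empty_union, hw.SX_empty (d := fun _ => Fin q), zero_add] at b2 b3 b4
  rw [← map_union, b1, b2, pj_ap, SX_conj hS hUU, SX_conj (hS.mono (compl_subset_compl.2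
    (map_subset_map.2 subset_union_right))) hUU, b3, b4, hdim, card_map] at key
  have b5 := bin_le hε h1
  have b6 : ε ≤ Real.sqrt ε := Real.le_sqrt_of_sq_le (by nlinarith)
  simp only [MI, S_eq]
  nlinarith

end Crest.Agent.N336
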