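import Crest.Agent.N336.Q.Rel

/-!
# Row 336, core: density matrices (helper87)

* `Dens ω`, invariances of `ent`, `kerP`, `ent_le_log_of_proj`, `exists_jordan`
-/

set_option autoImplicit false
set_option linter.unusedSectionVars false

open Matrix Finset
open scoped Kronecker ComplexOrder MatrixOrder Matrix.Norms.L2Operator InnerProductSpace

namespace Crest.Agent.N336.Q

section matrices

variable {n m : Type} [Fintype n] [DecidableEq n] [Fintype m] [DecidableEq m]

/-- density matrices -/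
structure Dens (ω : Matrix n n ℂ) : Prop where
  psd : ω.PosSemidef
  tr : trace ω = 1

lemma Dens.herm {ω : Matrix n n ℂ} (h : Dens ω) : ω.IsHermitian := h.psd.1

lemma Dens.re_tr {ω : Matrix n n ℂ} (h : Dens ω) : (trace ω).re = 1 := by rw [h.tr]; rfl

lemma Dens.sum_ev {ω : Matrix n n ℂ} (h : Dens ω) : ∑ i, ev ω i = 1 := by
  rw [← re_trace_eq h.herm, h.re_tr]

lemma Dens.ev_le_one {ω : Matrix n n ℂ} (h : Dens ω) (i : n) : ev ω i ≤ 1 := by
  rw [← h.sum_ev]
  exact Finset.single_le_sum (fun j _ => ev_nonneg h.psd j) (mem_univ i)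

lemma dens_pj {v : Vec n} (h : ‖v‖ = 1) : Dens (pj v) :=
  ⟨pj_posSemidef v, by rw [trace_pj, h]; simp⟩

lemma Dens.ent_nonneg {ω : Matrix n n ℂ} (h : Dens ω) : 0 ≤ ent ω :=
  Finset.sum_nonneg fun i _ => Real.negMulLog_nonneg (ev_nonneg h.psd i) (h.ev_le_one i)

lemma posSemidef_real_smul {c : ℝ} (hc : 0 ≤ c) {ω : Matrix n n ℂ} (h : ω.PosSemidef) :
    ((c : ℂ) • ω).PosSemidef := h.smul (Complex.zero_le_real.2 hc)

lemma trace_fc_transpose (f : ℝ → ℂ) {A : Matrix n n ℂ} (hA : A.IsHermitian) :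
    trace (fc f Aᵀ) = trace (fc f A) := by
  have h1 : ((eU A)ᴴᵀ)ᴴ = (eU A)ᵀ := by ext i j; simp
  have h2 : Aᵀ = (eU A)ᴴᵀ * diagonal (fun i => (ev A i : ℂ)) * ((eU A)ᴴᵀ)ᴴ := by
    conv_lhs => rw [← fc_id hA, fc]
    rw [h1, transpose_mul, transpose_mul, diagonal_transpose, Matrix.mul_assoc]
  have h3 : ((eU A)ᴴᵀ)ᴴ * (eU A)ᴴᵀ = 1 := by rw [h1, ← transpose_mul, star_mul_eU, transpose_one]
  rw [h2, fc_spec f h3 (mul_eq_one_comm.1 h3), trace_mul_cycle, h3, Matrix.one_mul, trace_diagonal,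
    trace_fc]

lemma ent_transpose {A : Matrix n n ℂ} (hA : A.IsHermitian) : ent Aᵀ = ent A := by
  rw [ent_eq_trace, ent_eq_trace, trace_fc_transpose _ hA]

lemma ent_mul_conjTranspose (W : Matrix n m ℂ) : ent (W * Wᴴ) = ent (Wᴴ * W) := by
  rw [ent_eq_trace, ent_eq_trace, trace_fc_mul_conjTranspose (by simp)]

lemma ent_conj {A : Matrix m m ℂ} (hA : A.IsHermitian) {V : Matrix n m ℂ} (h : Vᴴ * V = 1) :
    ent (V * A * Vᴴ) = ent A := by
  rw [ent_eq_trace, ent_eq_trace, fr, fc_isometry (by simp) hA h, trace_mul_cycle, h,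
    Matrix.one_mul]

lemma ev_proj {P : Matrix n n ℂ} (hP : P.IsHermitian) (h : P * P = P) (i : n) :
    ev P i = 0 ∨ ev P i = 1 := by
  have h1 : ap (P * P) (evec P i) = ap P (evec P i) := by rw [h]
  rw [ap_mul, ap_evec hP, map_smul, ap_evec hP, smul_smul] at h1
  have h2 := congrArg (fun v => ⟪evec P i, v⟫_ℂ) h1
  simp only [inner_smul_right, inner_evec, if_true, mul_one] at h2
  have h3 : ev P i * ev P i = ev P i := by exact_mod_cast h2
  rcases eq_or_ne (ev P i) 0 with h0 | h0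
  · exact Or.inl h0
  · exact Or.inr (mul_left_cancel₀ h0 (by rw [h3, mul_one]))

lemma proj_posSemidef {P : Matrix n n ℂ} (hP : P.IsHermitian) (h : P * P = P) :
    P.PosSemidef := by
  have := posSemidef_conjTranspose_mul_self P
  rwa [hP.eq, h] at this

lemma ent_pj {v : Vec n} (h : ‖v‖ = 1) : ent (pj v) = 0 := by
  refine Finset.sum_eq_zero fun i _ => ?_
  have h1 : pj v * pj v = pj v := by
    rw [mul_kb, ap_kb, inner_self_eq_norm_sq_to_K, h]; simp
  rcases ev_proj (pj_isHermitian v) h1 i with h2 | h2 <;> simp [h2]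

/-- a positive matrix killed in trace by a projection is killed by it -/
lemma proj_mul_eq_zero {P ρ : Matrix n n ℂ} (hP : P.IsHermitian) (h : P * P = P)
    (hρ : ρ.PosSemidef) (h0 : (trace (P * ρ)).re = 0) : P * ρ = 0 := by
  obtain ⟨C, rfl⟩ := CStarAlgebra.nonneg_iff_eq_star_mul_self.1 hρ.nonneg
  rw [star_eq_conjTranspose] at h0 ⊢
  have h1 : trace ((C * P)ᴴ * (C * P)) = trace (P * (Cᴴ * C)) := by
    rw [conjTranspose_mul, hP.eq, ← Matrix.mul_assoc, trace_mul_comm, ← Matrix.mul_assoc,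
      ← Matrix.mul_assoc, h, Matrix.mul_assoc]
  have h2 : trace ((C * P)ᴴ * (C * P)) = 0 := by
    have h3 := Complex.le_def.1 (posSemidef_conjTranspose_mul_self (C * P)).trace_nonneg
    rw [h1] at h3 ⊢
    exact Complex.ext h0 h3.2.symm
  have h4 := congrArg conjTranspose (trace_conjTranspose_mul_self_eq_zero_iff.1 h2)
  rw [conjTranspose_mul, hP.eq, conjTranspose_zero] at h4
  rw [← Matrix.mul_assoc, h4, Matrix.zero_mul]

/-- the kernel projection -/
noncomputable def kerP (σ : Matrix n n ℂ) : Matrix n n ℂ :=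
  fr (fun x => if x = 0 then 1 else 0) σ

lemma kerP_isHermitian (σ : Matrix n n ℂ) : (kerP σ).IsHermitian := by
  rw [kerP]; exact fr_isHermitian _ _

lemma kerP_mul_self (σ : Matrix n n ℂ) : kerP σ * kerP σ = kerP σ := by
  rw [kerP, fc_mul]; exact fc_congr fun i => by beta_reduce; split_ifs <;> simp

lemma kerP_mul {σ : Matrix n n ℂ} (h : σ.IsHermitian) : kerP σ * σ = 0 := by
  conv_lhs => arg 2; rw [← fc_id h]
  rw [kerP, fc_mul, ← fc_zero σ]
  exact fc_congr fun i => by beta_reduce; split_ifs <;> simp [*]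

/-- the support condition through the kernel projection -/
lemma ac_of_trace {ρ σ : Matrix n n ℂ} (hρ : ρ.PosSemidef) (hσ : σ.PosSemidef)
    (h : (trace (kerP σ * ρ)).re = 0) : AC ρ σ := by
  intro v hv
  have h1 := proj_mul_eq_zero (kerP_isHermitian _) (kerP_mul_self _) hρ h
  set P := kerP σ with hP
  have h2 := re_inner_fr (fun x => x) σ v
  rw [fr_id hσ.1, hv] at h2
  have h3 := (Finset.sum_eq_zero_iff_of_nonneg fun k _ =>
    mul_nonneg (ev_nonneg hσ k) (sq_nonneg _)).1 h2.symm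
  have h4 : ap P v = v := by
    have h5 : ‖ap (P - 1) v‖ ^ 2 = 0 := by
      rw [hP, kerP, ← fc_one σ, fc_sub, norm_ap_fc_sq]
      refine Finset.sum_eq_zero fun i _ => ?_
      by_cases hi : ev σ i = 0
      · simp [hi]
      · rw [(mul_eq_zero.1 (h3 i (mem_univ i))).resolve_left hi, mul_zero]
    rw [sq_eq_zero_iff, norm_eq_zero, ap_sub, ap_one, sub_eq_zero] at h5
    exact h5
  rw [← h4, inner_ap_left, (kerP_isHermitian _).eq, ← ap_mul, ← ap_mul, h1]
  simp

/-- entropy is at most the logarithm of the rank of a supporting projection -/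
lemma ent_le_log_of_proj {P ρ : Matrix n n ℂ} (hP : P.IsHermitian) (h : P * P = P) (hρ : Dens ρ)
    (h1 : P * ρ = ρ) {r : ℝ} (hr : (trace P).re ≤ r) : ent ρ ≤ Real.log r := by
  have hP' := proj_posSemidef hP h
  have h2 : ρ * P = ρ := by
    have := congrArg conjTranspose h1
    rwa [conjTranspose_mul, hP.eq, hρ.herm.eq] at this
  have h3 : ρ ≤ P := by
    have h4 : ρ ≤ 1 := by
      rw [← fr_id hρ.herm, ← fc_one ρ]
      simpa [fr] using fr_le_fr (g := fun x => x) (k := fun _ => 1) (A := ρ) hρ.ev_le_one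
    have h5 := (Matrix.le_iff.1 h4).mul_mul_conjTranspose_same P
    rwa [hP.eq, Matrix.mul_sub, Matrix.sub_mul, Matrix.mul_one, h, h1, h2] at h5
  have h6 : 1 ≤ (trace P).re := by
    have := re_trace_mul_mono h3 PosSemidef.one
    rwa [Matrix.mul_one, Matrix.mul_one, hρ.re_tr] at this
  have hr0 : 0 < r := by linarith
  have h7 := trace_sub_le_rel hρ.psd (posSemidef_real_smul (inv_nonneg.2 hr0.le) hP')
    (AC.of_le hρ.psd (C := r) (by
      rw [smul_smul, ← Complex.ofReal_mul, mul_inv_cancel₀ hr0.ne']; simpa using h3))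
  have h8 : fr Real.log (((r⁻¹ : ℝ) : ℂ) • P) = ((Real.log r⁻¹ : ℝ) : ℂ) • P := by
    rw [fr, fc_smul_arg _ _ hP]
    conv_rhs => rw [← fc_id hP, fc_smul]
    exact fc_congr fun i => by rcases ev_proj hP h i with h | h <;> simp [h]
  rw [rel, h8, Matrix.mul_smul, h2, trace_smul, trace_smul, hρ.tr, smul_eq_mul, smul_eq_mul,
    Complex.re_ofReal_mul, Real.log_inv] at h7
  have h9 : r⁻¹ * (trace P).re ≤ 1 := by rw [inv_mul_le_iff₀ hr0]; linarith
  simp only [Complex.one_re, mul_one, Complex.ofReal_re] at h7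
  linarith

lemma Dens.ent_le {ρ : Matrix n n ℂ} (hρ : Dens ρ) : ent ρ ≤ Real.log (Fintype.card n) :=
  ent_le_log_of_proj isHermitian_one (Matrix.mul_one 1) hρ (Matrix.one_mul ρ) (by simp)

/-- Jordan decomposition of a difference of states -/
lemma exists_jordan {ρ σ : Matrix n n ℂ} (hρ : Dens ρ) (hσ : Dens σ) {ε : ℝ}
    (h : ∀ O : Matrix n n ℂ, O.IsHermitian → ‖O‖ ≤ 1 →
      (trace (O * ρ)).re - (trace (O * σ)).re ≤ 2 * ε) :
    0 ≤ ε ∧ ∃ Δ Δ' : Matrix n n ℂ, Dens Δ ∧ Dens Δ' ∧ ρ + (ε : ℂ) • Δ' = σ + (ε : ℂ) • Δ ∧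
      ∀ P : Matrix n n ℂ, P * ρ = ρ → P * σ = σ → P * Δ = Δ ∧ P * Δ' = Δ' := by
  have hZ : (ρ - σ).IsHermitian := hρ.herm.sub hσ.herm
  set Z := ρ - σ with hZd
  set A := fr (fun x => max x 0) Z with hA
  set B := fr (fun x => max (-x) 0) Z with hB
  have hAp : A.PosSemidef := fr_posSemidef fun i => le_max_right _ _
  have hBp : B.PosSemidef := fr_posSemidef fun i => le_max_right _ _
  have hAB : A - B = Z := by
    rw [hA, hB, fc_sub]
    conv_rhs => rw [← fc_id hZ]
    exact fc_congr fun i => by rw [← Complex.ofReal_sub, max_zero_sub_max_neg_zero_eq_self]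
  have htr : trace A = trace B := by
    rw [← sub_eq_zero, ← trace_sub, hAB, hZd, trace_sub, hρ.tr, hσ.tr, sub_self]
  have hs := h (fr (fun x => if 0 ≤ x then 1 else -1) Z) (fr_isHermitian _ _)
    (norm_fc_le zero_le_one fun i => by beta_reduce; split_ifs <;> simp)
  have hs2 : fr (fun x => if 0 ≤ x then 1 else -1) Z * Z = A + B := by
    conv_lhs => arg 2; rw [← fc_id hZ]
    rw [fc_mul, hA, hB, fc_add]
    refine fc_congr fun i => ?_
    beta_reduce
    rw [← Complex.ofReal_mul, ← Complex.ofReal_add, Complex.ofReal_inj]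
    split_ifs with hx
    · rw [max_eq_left hx, max_eq_right (by linarith)]; simp
    · rw [max_eq_right (by linarith), max_eq_left (by linarith)]; simp
  rw [← Complex.sub_re, ← trace_sub, ← Matrix.mul_sub, hs2, trace_add, ← htr, Complex.add_re] at hs
  obtain ⟨ha0, ha1⟩ := Complex.le_def.1 hAp.trace_nonneg
  set a := (trace A).re with ha
  have haA : trace A = (a : ℂ) := Complex.ext rfl (by simpa using ha1.symm)
  have ha2 : 0 ≤ a := ha0
  have hε : 0 ≤ ε := by linarith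
  have hPZ : ∀ (g : ℝ → ℝ), g 0 = 0 → ∀ P : Matrix n n ℂ, P * ρ = ρ → P * σ = σ →
      P * fr g Z = fr g Z := by
    intro g g0 P h1 h2
    have e : fr g Z = Z * fr (fun x => g x / x) Z := by
      conv_rhs => arg 1; rw [← fc_id hZ]
      rw [fc_mul]
      refine fc_congr fun i => ?_
      norm_cast
      by_cases hx : ev Z i = 0
      · simp [hx, g0]
      · field_simp
    rw [e, ← Matrix.mul_assoc, hZd, Matrix.mul_sub, h1, h2]
  refine ⟨hε, ?_⟩
  rcases hε.eq_or_lt with h0 | h0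
  · have hA0 : A = 0 := hAp.trace_eq_zero_iff.1 (by rw [haA]; norm_cast; linarith)
    have hB0 : B = 0 := hBp.trace_eq_zero_iff.1 (by rw [← htr, haA]; norm_cast; linarith)
    rw [hA0, hB0, sub_zero, hZd, eq_comm, sub_eq_zero] at hAB
    exact ⟨ρ, ρ, hρ, hρ, by rw [hAB], fun P h1 _ => ⟨h1, h1⟩⟩
  have hεc : (ε : ℂ) ≠ 0 := by exact_mod_cast h0.ne'
  have hD : ∀ C : Matrix n n ℂ, C.PosSemidef → trace C = (a : ℂ) →
      Dens (((ε⁻¹ : ℝ) : ℂ) • (C + ((ε - a : ℝ) : ℂ) • ρ)) := by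
    intro C hC htC
    refine ⟨posSemidef_real_smul (by positivity)
      (hC.add (posSemidef_real_smul (by linarith) hρ.psd)), ?_⟩
    rw [trace_smul, trace_add, trace_smul, htC, hρ.tr]
    simp only [smul_eq_mul]; push_cast; field_simp; ring
  refine ⟨_, _, hD A hAp haA, hD B hBp (htr ▸ haA), ?_, fun P h1 h2 => ⟨?_, ?_⟩⟩
  · simp only [smul_smul, Complex.ofReal_inv, mul_inv_cancel₀ hεc, one_smul]
    have : ρ = σ + (A - B) := by rw [hAB, hZd]; abel
    conv_lhs => arg 1; rw [this]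
    abel
  · rw [Matrix.mul_smul, Matrix.mul_add, Matrix.mul_smul, h1, hPZ _ (by simp) P h1 h2]
  · rw [Matrix.mul_smul, Matrix.mul_add, Matrix.mul_smul, h1, hPZ _ (by simp) P h1 h2]

end matrices

end Crest.Agent.N336.Q
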