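import Crest.Agent.N336.A.Defs

/-!
# Row 336: polar decomposition, Powers-Størmer and Uhlmann (helper48)
-/

set_option autoImplicit false
set_option linter.unusedSectionVars false

open Matrix Finset
open scoped Kronecker ComplexOrder MatrixOrder Matrix.Norms.L2Operator InnerProductSpace

namespace Crest.Agent.N336.Q

variable {n m : Type} [Fintype n] [DecidableEq n] [Fintype m] [DecidableEq m]

/-- matrices with the same Gram matrix differ by a unitary -/
theorem exists_unitary_of_gram {A B : Matrix n n ℂ} (h : Aᴴ * A = Bᴴ * B) :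
    ∃ V : Matrix n n ℂ, Vᴴ * V = 1 ∧ V * Vᴴ = 1 ∧ A = V * B := by
  have hn : ∀ v, ‖ap A v‖ = ‖ap B v‖ := fun v =>
    (pow_left_inj₀ (norm_nonneg _) (norm_nonneg _) two_ne_zero).1 (by
      rw [norm_ap_sq, norm_ap_sq, h])
  let b : Vec n →ₗ[ℂ] Vec n := (ap B).toLinearMap
  obtain ⟨g, hg⟩ := b.rangeRestrict.exists_rightInverse_of_surjective b.range_rangeRestrict
  have hg' : ∀ y : b.range, ap B (g y) = y := fun y =>
    congrArg Subtype.val (LinearMap.congr_fun hg y)
  let L : b.range →ₗᵢ[ℂ] Vec n :=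
    { toLinearMap := (ap A).toLinearMap ∘ₗ g
      norm_map' := fun y => by
        change ‖ap A (g y)‖ = _
        rw [hn, hg']; rfl }
  obtain ⟨V, hV⟩ := (Matrix.toEuclideanCLM (𝕜 := ℂ) (n := n)).surjective
    L.extend.toContinuousLinearMap
  have hV' : ∀ v, ap V v = L.extend v := fun v => DFunLike.congr_fun hV v
  have h1 : Vᴴ * V = 1 := by
    apply (Matrix.toEuclideanCLM (𝕜 := ℂ) (n := n)).injective
    refine ContinuousLinearMap.ext fun v => ext_inner_left ℂ fun w => ?_
    change ⟪w, ap (Vᴴ * V) v⟫_ℂ = ⟪w, ap 1 v⟫_ℂ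
    rw [ap_mul, ← inner_ap_left, ap_one, hV', hV', LinearIsometry.inner_map_map]
  refine ⟨V, h1, mul_eq_one_comm.1 h1, ?_⟩
  apply (Matrix.toEuclideanCLM (𝕜 := ℂ) (n := n)).injective
  refine ContinuousLinearMap.ext fun v => ?_
  change ap A v = ap (V * B) v
  let y : b.range := ⟨ap B v, v, rfl⟩
  have h2 : L.extend (ap B v) = ap A (g y) := L.extend_apply y
  rw [ap_mul, hV', h2, ← sub_eq_zero, ← map_sub, ← norm_eq_zero, hn, map_sub, hg', sub_self,
    norm_zero]

lemma fr_sqrt_mul_self {A : Matrix n n ℂ} (h : A.PosSemidef) :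
    fr Real.sqrt A * fr Real.sqrt A = A := by
  conv_rhs => rw [← fc_id h.1]
  rw [fc_mul]
  exact fc_congr fun i => by rw [← Complex.ofReal_mul, Real.mul_self_sqrt (ev_nonneg h i)]

lemma fr_sqrt_posSemidef (A : Matrix n n ℂ) : (fr Real.sqrt A).PosSemidef :=
  fr_posSemidef fun _ => Real.sqrt_nonneg _

/-- polar decomposition -/
theorem exists_polar (M : Matrix n n ℂ) :
    ∃ V : Matrix n n ℂ, Vᴴ * V = 1 ∧ V * Vᴴ = 1 ∧ M = V * fr Real.sqrt (Mᴴ * M) :=
  exists_unitary_of_gram (by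
    rw [(fr_isHermitian _ _).eq, fr_sqrt_mul_self (posSemidef_conjTranspose_mul_self M)])

lemma re_trace_conjTranspose (M : Matrix n n ℂ) : (trace Mᴴ).re = (trace M).re := by
  rw [trace_conjTranspose]; rfl

lemma re_trace_mul_le {K D : Matrix n n ℂ} (hK : K.PosSemidef) (hD : D * Dᴴ ≤ 1) :
    (trace (K * D)).re ≤ (trace K).re := by
  have h1 := re_trace_mul_nonneg (posSemidef_self_mul_conjTranspose (1 - D)) hK
  have h2 := re_trace_mul_mono hD hK
  have h3 : (trace (Dᴴ * K)).re = (trace (K * D)).re := by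
    rw [← re_trace_conjTranspose, conjTranspose_mul, conjTranspose_conjTranspose, hK.1.eq]
  have h4 : (1 - D) * (1 - D)ᴴ * K = K - Dᴴ * K - D * K + D * Dᴴ * K := by
    rw [conjTranspose_sub, conjTranspose_one]; noncomm_ring
  rw [h4, trace_add, trace_sub, trace_sub, trace_mul_comm D K] at h1
  rw [Matrix.one_mul] at h2
  simp only [Complex.add_re, Complex.sub_re] at h1
  linarith

/-- Powers-Størmer -/
theorem powers_stormer {A B : Matrix n n ℂ} (hA : A.PosSemidef) (hB : B.PosSemidef) :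
    ∃ O : Matrix n n ℂ, O.IsHermitian ∧ ‖O‖ ≤ 1 ∧
      (trace ((A - B) * (A - B))).re ≤ (trace (O * (A * A))).re - (trace (O * (B * B))).re := by
  have hS : (A - B).IsHermitian := hA.1.sub hB.1
  set S := A - B with hS'
  let O := fr (fun x => if 0 ≤ x then 1 else -1) S
  let p := fr (fun x => max x 0) S
  let q := fr (fun x => max (-x) 0) S
  have hp : p.PosSemidef := fr_posSemidef fun _ => le_max_right _ _
  have hq : q.PosSemidef := fr_posSemidef fun _ => le_max_right _ _
  have h1 : S = p - q := by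
    conv_lhs => rw [← fc_id hS]
    rw [fc_sub]
    exact fc_congr fun i => by rw [← Complex.ofReal_sub, max_zero_sub_max_neg_zero_eq_self]
  have h2 : O * S = p + q := by
    conv_lhs => arg 2; rw [← fc_id hS]
    rw [fc_mul, fc_add]
    refine fc_congr fun i => ?_
    rw [← Complex.ofReal_mul, ← Complex.ofReal_add]
    congr 1
    beta_reduce
    split_ifs with h
    · rw [max_eq_left h, max_eq_right (by linarith)]; ring
    · rw [max_eq_right (by linarith), max_eq_left (by linarith)]; ring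
  have h3 : S * O = O * S := (commute_fc _ hS (Commute.refl S)).symm
  refine ⟨O, fr_isHermitian _ _, norm_fc_le zero_le_one fun i => by beta_reduce; split_ifs <;> simp,
    ?_⟩
  have h4 := re_trace_mul_nonneg hp hB
  have h5 := re_trace_mul_nonneg hq hA
  have e1 : 2 * (trace (O * (A * A)) - trace (O * (B * B))) = 2 * trace ((p + q) * (A + B)) := by
    have : O * S * (A + B) + O * ((A + B) * S) =
        O * (A * A) - O * (B * B) + (O * (A * A) - O * (B * B)) := by
      rw [hS']; noncomm_ring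
    have h6 := congrArg trace this
    have h7 : trace (O * ((A + B) * S)) = trace ((p + q) * (A + B)) := by
      rw [← Matrix.mul_assoc, trace_mul_cycle, h3, h2]
    rw [trace_add, h7, h2, trace_add, trace_sub] at h6
    linear_combination -h6
  have e2 : (p + q) * (A + B) = S * S + (p * B + p * B) + (q * A + q * A) := by
    conv_rhs => arg 1; arg 1; arg 1; rw [h1]
    rw [hS']; noncomm_ring
  have e3 := congrArg Complex.re (mul_left_cancel₀ two_ne_zero e1)
  rw [e2] at e3
  simp only [trace_add, Complex.add_re, Complex.sub_re] at e3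
  linarith

lemma exists_sqrt_factor (P : Matrix n m ℂ) : ∃ V : Matrix n m ℂ,
    P * Vᴴ = fr Real.sqrt (P * Pᴴ) ∧ V * Vᴴ ≤ 1 ∧ Vᴴ * V ≤ 1 := by
  have hr := posSemidef_self_mul_conjTranspose P
  set r := P * Pᴴ with hr'
  let g := fr (fun x => (Real.sqrt x)⁻¹) r
  have hg : gᴴ = g := (fr_isHermitian _ _).eq
  have h1 : r * g = fr Real.sqrt r := by
    conv_lhs => arg 1; rw [← fc_id hr.1]
    rw [fc_mul]
    exact fc_congr fun i => by
      rw [← Complex.ofReal_mul, ← div_eq_mul_inv, Real.div_sqrt]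
  have h2 : g * P * (g * P)ᴴ = fr (fun x => (Real.sqrt x)⁻¹ * Real.sqrt x) r := by
    rw [conjTranspose_mul, hg, Matrix.mul_assoc, ← Matrix.mul_assoc P, ← hr', h1, fc_mul]
    exact fc_congr fun i => by rw [← Complex.ofReal_mul]
  have h3 : g * P * (g * P)ᴴ * g = g := by
    rw [h2, fc_mul]
    refine fc_congr fun i => ?_
    rw [← Complex.ofReal_mul]
    congr 1
    by_cases h : Real.sqrt (ev r i) = 0
    · simp [h]
    · simp only [inv_mul_cancel₀ h, one_mul]
  refine ⟨g * P, by rw [conjTranspose_mul, hg, ← Matrix.mul_assoc, h1], ?_, ?_⟩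
  · rw [h2, ← fc_one r]
    exact fr_le_fr (k := fun _ => 1) fun i => inv_mul_le_one
  · have h4 : (g * P)ᴴ * (g * P) * ((g * P)ᴴ * (g * P)) = (g * P)ᴴ * (g * P) := by
      conv_rhs => arg 2; rw [← h3]
      simp only [Matrix.mul_assoc]
    have h5 := posSemidef_conjTranspose_mul_self (1 - (g * P)ᴴ * (g * P))
    rw [conjTranspose_sub, conjTranspose_one, (isHermitian_conjTranspose_mul_self _).eq,
      Matrix.sub_mul, Matrix.mul_sub, Matrix.mul_sub, h4, Matrix.one_mul, Matrix.one_mul,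
      Matrix.mul_one, sub_self, sub_zero] at h5
    exact h5

/-- Uhlmann's theorem together with the Powers-Størmer inequality, for matrices -/
theorem uhl_mat (P F : Matrix n m ℂ) : ∃ (O : Matrix n n ℂ) (u : Matrix m m ℂ),
    O.IsHermitian ∧ ‖O‖ ≤ 1 ∧ uᴴ * u = 1 ∧ u * uᴴ = 1 ∧
      (trace ((P * u - F) * (P * u - F)ᴴ)).re ≤
        (trace (O * (P * Pᴴ))).re - (trace (O * (F * Fᴴ))).re := by
  obtain ⟨O, hO, hO1, hPS⟩ := powers_stormer (fr_sqrt_posSemidef (P * Pᴴ))
    (fr_sqrt_posSemidef (F * Fᴴ))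
  obtain ⟨V, hV, -, hV2⟩ := exists_sqrt_factor P
  obtain ⟨W, hW, hW1, -⟩ := exists_sqrt_factor F
  obtain ⟨U, hU1, hU2, hU⟩ := exists_polar (Fᴴ * P)
  have hK := fr_sqrt_posSemidef ((Fᴴ * P)ᴴ * (Fᴴ * P))
  set K := fr Real.sqrt ((Fᴴ * P)ᴴ * (Fᴴ * P))
  have hA := fr_sqrt_mul_self (posSemidef_self_mul_conjTranspose P)
  have hB := fr_sqrt_mul_self (posSemidef_self_mul_conjTranspose F)
  have hBh := (fr_isHermitian Real.sqrt (F * Fᴴ)).eq
  set A := fr Real.sqrt (P * Pᴴ)
  set B := fr Real.sqrt (F * Fᴴ)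
  rw [hA, hB] at hPS
  refine ⟨O, Uᴴ, hO, hO1, by rwa [conjTranspose_conjTranspose], by rwa [conjTranspose_conjTranspose],
    le_trans ?_ hPS⟩
  have hD : Vᴴ * W * U * (Vᴴ * W * U)ᴴ ≤ 1 := by
    refine le_trans ?_ hV2
    have h1 := (Matrix.le_iff.1 hW1).conjTranspose_mul_mul_same V
    rw [Matrix.le_iff]
    convert h1 using 1
    simp only [conjTranspose_mul, conjTranspose_conjTranspose, Matrix.mul_sub, Matrix.sub_mul,
      Matrix.mul_one, Matrix.mul_assoc]
    rw [← Matrix.mul_assoc U, hU2, Matrix.one_mul]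
  have h1 := re_trace_mul_le hK hD
  have h2 : trace (A * B) = trace (K * (Vᴴ * W * U)) := by
    rw [← hBh, ← hV, ← hW, conjTranspose_mul, conjTranspose_conjTranspose, ← Matrix.mul_assoc,
      trace_mul_comm, ← Matrix.mul_assoc, ← Matrix.mul_assoc, hU]
    conv_rhs => rw [← Matrix.mul_assoc, trace_mul_comm]
    simp only [Matrix.mul_assoc]
  have h3 : trace (P * Uᴴ * Fᴴ) = trace K := by
    rw [trace_mul_comm, ← Matrix.mul_assoc, hU, trace_mul_cycle, hU1, Matrix.one_mul]
  have h4 : (trace (F * (P * Uᴴ)ᴴ)).re = (trace K).re := by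
    rw [← h3, ← re_trace_conjTranspose, conjTranspose_mul, conjTranspose_conjTranspose]
  have h5 : P * Uᴴ * (P * Uᴴ)ᴴ = P * Pᴴ := by
    rw [conjTranspose_mul, conjTranspose_conjTranspose, Matrix.mul_assoc, ← Matrix.mul_assoc Uᴴ,
      hU1, Matrix.one_mul]
  rw [conjTranspose_sub]
  simp only [Matrix.sub_mul, Matrix.mul_sub, trace_sub, Complex.sub_re, h3, h4, h5, hA, hB,
    trace_mul_comm B A, h2]
  linarith

end Crest.Agent.N336.Q

namespace Crest.Agent.N336.A

open Crest.Agent.N336.Q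

theorem uhl : UhlStmt := by
  intro ι _ _ d _ _ _ X ψ φ δ h
  let e := sb X
  let mat : Q.Vec (Cfg d) → Matrix (Cfg (Q.sub e d)) (Rest (rg e) d) ℂ := fun v =>
    Matrix.of fun a c => v ((eqv e d).symm (a, c))
  have hred : ∀ v, red e (pj v) = mat v * (mat v)ᴴ := fun v => rfl
  have hin : ∀ (O : Q.Op (Q.sub e d)) v,
      ⟪v, ap (lift X O) v⟫_ℂ = trace (O * (mat v * (mat v)ᴴ)) := fun O v => by
    rw [← trace_mul_kb, ← hred]; exact trace_emb_mul e O _
  obtain ⟨O, u, hO, hO1, hu1, hu2, hle⟩ := uhl_mat (mat ψ) (mat φ)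
  have h0 := h (lift X O) (supp_lift X O) (emb_isHermitian _ hO) ((norm_emb_le _ _).trans hO1)
  rw [hin, hin] at h0
  let U : Q.Op d := ((1 : Q.Op (Q.sub e d)) ⊗ₖ uᵀ).submatrix (eqv e d) (eqv e d)
  have h1 : U * Uᴴ = 1 := by
    have : uᵀ * uᵀᴴ = 1 := by
      rw [show uᵀᴴ = uᴴᵀ from rfl, ← transpose_mul, hu1, transpose_one]
    simp only [U]
    rw [conjTranspose_submatrix, submatrix_mul_equiv, conjTranspose_kronecker,
      ← mul_kronecker_mul, this]
    simp
  refine ⟨U, ⟨fun σ τ h => ?_, fun σ τ σ' τ' h h' h2 h3 => ?_⟩, mul_eq_one_comm.1 h1, h1, ?_⟩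
  · have : res e σ ≠ res e τ := fun h2 => h fun x hx =>
      res_eq_iff.1 h2 x (by simpa [e] using hx)
    simp [U, this]
  · have e1 : res e σ = res e τ := res_eq_iff.2 fun x hx => h x (by simpa [e] using hx)
    have e2 : res e σ' = res e τ' := res_eq_iff.2 fun x hx => h' x (by simpa [e] using hx)
    have e3 : off (rg e) σ = off (rg e) σ' :=
      off_eq_iff.2 fun x hx => h2 x (by simpa [e] using hx)
    have e4 : off (rg e) τ = off (rg e) τ' :=
      off_eq_iff.2 fun x hx => h3 x (by simpa [e] using hx)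
    simp [U, e1, e2, e3, e4]
  · have h2 : mat (ap U ψ - φ) = mat ψ * u - mat φ := by
      ext a c
      simp only [mat, of_apply, PiLp.sub_apply, Matrix.sub_apply, ap_apply, mul_apply, U,
        submatrix_apply, Equiv.apply_symm_apply]
      rw [← Equiv.sum_comp (eqv e d).symm, Fintype.sum_prod_type]
      simp [one_apply, mul_comm]
    have h3 := hin 1 (ap U ψ - φ)
    rw [map_one, ap_one, Matrix.one_mul, h2, inner_self_eq_norm_sq_to_K] at h3
    have h4 : ‖ap U ψ - φ‖ ^ 2 = (trace ((mat ψ * u - mat φ) * (mat ψ * u - mat φ)ᴴ)).re := by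
      rw [← h3]; norm_cast
    linarith

end Crest.Agent.N336.A
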