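import Crest.Agent.N336.Q.Sys
import Crest.Prelude.Def_LatticeSpin

/-!
# Row 336, core: marginal operators, conditional expectations, matrix units (helper87)

* `mg X ω = ρ_X ⊗ 1`, `E X M` the trace preserving conditional expectation onto `Supp X`
* `E_E : E X (E Y M) = E (X ∩ Y) M`, `exists_twirl`, `norm_sub_E_le`
* `Supp.decomp` : an operator on `Z` is a sum of `dim Z ^ 2` products across a cut
* bridge to the prelude: `localOp_eq`, `isSupportedOn_iff`, `reducedDensity_eq`
-/

set_option autoImplicit false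
set_option linter.unusedSectionVars false

open Matrix Finset
open scoped Kronecker ComplexOrder MatrixOrder Matrix.Norms.L2Operator InnerProductSpace

namespace Crest.Agent.N336.Q

variable {ι κ : Type} [Fintype ι] [DecidableEq ι] [Fintype κ] [DecidableEq κ]
  {d : ι → Type} [∀ x, Fintype (d x)] [∀ x, DecidableEq (d x)]

/-- the marginal operator `ρ_X ⊗ 1` -/
noncomputable def mg (X : Finset ι) (ω : Op d) : Op d := lift X (red (sb X) ω)

lemma supp_mg (X : Finset ι) (ω : Op d) : Supp X (mg X ω) := supp_lift _ _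

lemma mg_posSemidef (X : Finset ι) {ω : Op d} (h : ω.PosSemidef) : (mg X ω).PosSemidef :=
  emb_posSemidef _ (red_posSemidef _ h)

lemma mg_isHermitian (X : Finset ι) {ω : Op d} (h : ω.IsHermitian) : (mg X ω).IsHermitian :=
  emb_isHermitian _ (red_isHermitian _ h)

lemma mg_add (X : Finset ι) (ω ω' : Op d) : mg X (ω + ω') = mg X ω + mg X ω' := by
  simp [mg, red_add]

lemma mg_sub (X : Finset ι) (ω ω' : Op d) : mg X (ω - ω') = mg X ω - mg X ω' := by
  simp [mg, red_sub]

lemma mg_smul (X : Finset ι) (c : ℂ) (ω : Op d) : mg X (c • ω) = c • mg X ω := by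
  simp [mg, red_smul]

lemma mg_sum {α : Type*} (X : Finset ι) (s : Finset α) (ω : α → Op d) :
    mg X (∑ k ∈ s, ω k) = ∑ k ∈ s, mg X (ω k) := by
  simp [mg, red_sum]

lemma mg_conjTranspose (X : Finset ι) (ω : Op d) : mg X ωᴴ = (mg X ω)ᴴ := by
  rw [mg, mg, red_conjTranspose, emb_conjTranspose]

lemma mg_mono (X : Finset ι) {ω ω' : Op d} (h : ω ≤ ω') : mg X ω ≤ mg X ω' :=
  emb_mono _ (red_mono _ h)

lemma trace_mg (X : Finset ι) (ω : Op d) : trace (mg X ω) = (dim d Xᶜ : ℂ) * trace ω := by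
  rw [mg, trace_lift, trace_red]

/-- defining property of the marginal operator -/
lemma Supp.trace_mul_mg {X : Finset ι} {M : Op d} (h : Supp X M) (ω : Op d) :
    trace (M * mg X ω) = (dim d Xᶜ : ℂ) * trace (M * ω) := by
  obtain ⟨m, rfl⟩ := h.exists_lift
  rw [mg, ← map_mul, trace_lift, trace_emb_mul]

lemma Supp.mg_mul {X : Finset ι} {M : Op d} (h : Supp X M) (ω : Op d) :
    mg X (M * ω) = M * mg X ω := by
  obtain ⟨m, rfl⟩ := h.exists_lift
  rw [mg, mg, red_emb_mul, map_mul]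

lemma Supp.mg_mul' {X : Finset ι} {M : Op d} (h : Supp X M) (ω : Op d) :
    mg X (ω * M) = mg X ω * M := by
  obtain ⟨m, rfl⟩ := h.exists_lift
  rw [mg, mg, red_mul_emb, map_mul]

lemma Supp.mg_eq {X : Finset ι} {M : Op d} (h : Supp X M) : mg X M = (dim d Xᶜ : ℂ) • M := by
  obtain ⟨m, rfl⟩ := h.exists_lift
  rw [mg, red_emb, rg_sb, map_smul]

/-- cyclicity of the partial trace for operators on the traced out part -/
lemma red_mul_comm {e : κ ↪ ι} {N : Op d} (h : Supp (rg e)ᶜ N) (ω : Op d) :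
    red e (N * ω) = red e (ω * N) :=
  eq_red fun m => by
    rw [← trace_emb_mul, ← Matrix.mul_assoc, ((supp_emb e m).commute h disjoint_compl_right).eq,
      Matrix.mul_assoc, trace_mul_comm, Matrix.mul_assoc]

lemma red_conj_unitary {e : κ ↪ ι} {U : Op d} (h : Supp (rg e)ᶜ U) (hU : Uᴴ * U = 1)
    (ω : Op d) : red e (U * ω * Uᴴ) = red e ω := by
  rw [Matrix.mul_assoc, red_mul_comm h, Matrix.mul_assoc, hU, Matrix.mul_one]

/-- two operators supported on `X` with the same pairings agree -/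
lemma Supp.ext_trace [∀ x, Nonempty (d x)] {X : Finset ι} {M N : Op d} (hM : Supp X M)
    (hN : Supp X N) (h : ∀ A, Supp X A → trace (A * M) = trace (A * N)) : M = N := by
  obtain ⟨m, rfl⟩ := hM.exists_lift
  obtain ⟨k, rfl⟩ := hN.exists_lift
  congr 1
  refine Matrix.ext_iff_trace_mul_left.2 fun a => ?_
  have h1 := h _ (supp_lift X a)
  rw [← map_mul, ← map_mul, trace_lift, trace_lift] at h1
  have h2 : (dim d Xᶜ : ℂ) ≠ 0 := by exact_mod_cast (dim_pos _).ne'
  exact mul_left_cancel₀ h2 h1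

lemma emb_red_apply (e : κ ↪ ι) (ω : Op d) (σ τ : Cfg d) :
    (dim d (rg e) : ℂ) * emb e (red e ω) σ τ = if Agree (rg e) σ τ then
      ∑ γ : Cfg d, ω ((rg e).piecewise σ γ) ((rg e).piecewise τ γ) else 0 := by
  rw [emb_apply]
  split_ifs with h
  · rw [← Equiv.sum_comp (eqv e d).symm, Fintype.sum_prod_type, red_apply]
    have key : ∀ (σ : Cfg d) a c, (rg e).piecewise σ ((eqv e d).symm (a, c)) =
        (eqv e d).symm (res e σ, c) := by
      intro σ a c
      rw [Equiv.eq_symm_apply, eqv_apply]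
      rw [Prod.mk.injEq, res_eq_iff]
      refine ⟨fun x hx => by simp [piecewise, hx, -mem_rg], ?_⟩
      refine Eq.trans (off_eq_iff.2 fun x hx => ?_) (off_symm e (a, c))
      simp [piecewise, hx, -mem_rg]
    simp only [key, Finset.sum_const, card_univ, card_sub, nsmul_eq_mul]
  · simp

lemma mg_apply (X : Finset ι) (ω : Op d) (σ τ : Cfg d) :
    (dim d X : ℂ) * mg X ω σ τ = if Agree X σ τ then
      ∑ γ : Cfg d, ω (X.piecewise σ γ) (X.piecewise τ γ) else 0 := by
  have := emb_red_apply (sb X) ω σ τ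
  rwa [rg_sb] at this

lemma emb_red_eq_mg [∀ x, Nonempty (d x)] (e : κ ↪ ι) (ω : Op d) :
    emb e (red e ω) = mg (rg e) ω := by
  ext σ τ
  have h2 : (dim d (rg e) : ℂ) ≠ 0 := by exact_mod_cast (dim_pos _).ne'
  exact mul_left_cancel₀ h2 ((emb_red_apply e ω σ τ).trans (mg_apply _ ω σ τ).symm)

section nonempty

variable [∀ x, Nonempty (d x)]

lemma dim_ne_zero (X : Finset ι) : (dim d X : ℂ) ≠ 0 := by exact_mod_cast (dim_pos _).ne'

lemma dim_pos_real (X : Finset ι) : (0 : ℝ) < dim d X := by exact_mod_cast dim_pos _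

/-- the conditional expectation onto the operators supported on `X` -/
noncomputable def E (X : Finset ι) (M : Op d) : Op d := (dim d Xᶜ : ℂ)⁻¹ • mg X M

lemma mg_eq_E (X : Finset ι) (M : Op d) : mg X M = (dim d Xᶜ : ℂ) • E X M := by
  rw [E, smul_smul, mul_inv_cancel₀ (dim_ne_zero _), one_smul]

lemma E_apply (X : Finset ι) (M : Op d) (σ τ : Cfg d) :
    E X M σ τ = if Agree X σ τ then (dim d univ : ℂ)⁻¹ *
      ∑ γ : Cfg d, M (X.piecewise σ γ) (X.piecewise τ γ) else 0 := by
  have h := mg_apply X M σ τ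
  have h1 := dim_ne_zero (d := d) X
  have h2 := dim_ne_zero (d := d) Xᶜ
  rw [E, Matrix.smul_apply, smul_eq_mul, ← dim_mul_compl X]
  split_ifs at h ⊢
  · rw [← h]; push_cast; field_simp
  · rw [(mul_eq_zero.1 h).resolve_left h1, mul_zero]

lemma supp_E (X : Finset ι) (M : Op d) : Supp X (E X M) := (supp_mg X M).smul _

lemma Supp.E_eq {X : Finset ι} {M : Op d} (h : Supp X M) : E X M = M := by
  rw [E, h.mg_eq, smul_smul, inv_mul_cancel₀ (dim_ne_zero _), one_smul]

lemma E_add (X : Finset ι) (M N : Op d) : E X (M + N) = E X M + E X N := by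
  simp [E, mg_add]

lemma E_sub (X : Finset ι) (M N : Op d) : E X (M - N) = E X M - E X N := by
  simp [E, mg_sub, smul_sub]

lemma E_smul (X : Finset ι) (c : ℂ) (M : Op d) : E X (c • M) = c • E X M := by
  rw [E, E, mg_smul, smul_comm]

lemma E_sum {α : Type*} (X : Finset ι) (s : Finset α) (M : α → Op d) :
    E X (∑ k ∈ s, M k) = ∑ k ∈ s, E X (M k) := by
  simp [E, mg_sum, Finset.smul_sum]

lemma E_conjTranspose (X : Finset ι) (M : Op d) : E X Mᴴ = (E X M)ᴴ := by
  simp [E, mg_conjTranspose]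

lemma E_isHermitian (X : Finset ι) {M : Op d} (h : M.IsHermitian) : (E X M).IsHermitian := by
  unfold Matrix.IsHermitian; rw [← E_conjTranspose, h.eq]

lemma E_posSemidef (X : Finset ι) {M : Op d} (h : M.PosSemidef) : (E X M).PosSemidef :=
  (mg_posSemidef X h).smul (by positivity)

lemma E_mono (X : Finset ι) {M N : Op d} (h : M ≤ N) : E X M ≤ E X N := by
  rw [Matrix.le_iff, ← E_sub]; exact E_posSemidef X h

lemma Supp.trace_mul_E {X : Finset ι} {M : Op d} (h : Supp X M) (ω : Op d) :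
    trace (M * E X ω) = trace (M * ω) := by
  rw [E, Matrix.mul_smul, trace_smul, h.trace_mul_mg, smul_eq_mul,
    inv_mul_cancel_left₀ (dim_ne_zero _)]

lemma trace_E (X : Finset ι) (M : Op d) : trace (E X M) = trace M := by
  simpa using (Supp.one X).trace_mul_E M

lemma trace_E_mul (X : Finset ι) (M N : Op d) : trace (E X M * N) = trace (M * E X N) := by
  rw [← (supp_E X M).trace_mul_E, trace_mul_comm, (supp_E X N).trace_mul_E, trace_mul_comm]

lemma Supp.E_mul {X : Finset ι} {M : Op d} (h : Supp X M) (N : Op d) :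
    E X (M * N) = M * E X N := by rw [E, E, h.mg_mul, Matrix.mul_smul]

lemma Supp.E_mul' {X : Finset ι} {M : Op d} (h : Supp X M) (N : Op d) :
    E X (N * M) = E X N * M := by rw [E, E, h.mg_mul', Matrix.smul_mul]

theorem E_E (X Y : Finset ι) (M : Op d) : E X (E Y M) = E (X ∩ Y) M := by
  ext σ τ
  simp only [E_apply]
  have hA : ∀ γ : Cfg d, Agree X σ τ →
      (Agree Y (X.piecewise σ γ) (X.piecewise τ γ) ↔ Agree (X ∩ Y) σ τ) := by
    intro γ h
    constructor
    · intro h1 x hx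
      by_cases hX : x ∈ X
      · simpa [piecewise, hX] using h1 x fun hY => hx (mem_inter.2 ⟨hX, hY⟩)
      · exact h x hX
    · intro h1 x hx
      by_cases hX : x ∈ X
      · simpa [piecewise, hX] using h1 x fun hY => hx (mem_inter.1 hY).2
      · simp [piecewise, hX]
  by_cases h : Agree X σ τ
  · simp only [h, if_true, hA _ h]
    split_ifs with h1
    · congr 1
      rw [← Finset.mul_sum, ← Fintype.sum_prod_type']
      let f : Cfg d × Cfg d ≃ Cfg d × Cfg d := Function.Involutive.toPerm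
        (fun p => (Y.piecewise p.1 p.2, Y.piecewise p.2 p.1)) fun p => by
          refine Prod.ext (funext fun x => ?_) (funext fun x => ?_) <;>
            by_cases hx : x ∈ Y <;> simp [piecewise, hx]
      rw [← Equiv.sum_comp f]
      have key : ∀ (σ : Cfg d) (p : Cfg d × Cfg d),
          Y.piecewise (X.piecewise σ (f p).1) (f p).2 = (X ∩ Y).piecewise σ p.1 := by
        intro σ p
        funext x
        change Y.piecewise (X.piecewise σ (Y.piecewise p.1 p.2)) (Y.piecewise p.2 p.1) x = _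
        by_cases hx : x ∈ X <;> by_cases hy : x ∈ Y <;> simp [piecewise, hx, hy]
      simp only [key, Fintype.sum_prod_type, Finset.sum_const, card_univ, card_cfg, nsmul_eq_mul,
        ← Finset.mul_sum]
      rw [inv_mul_cancel_left₀ (dim_ne_zero _)]
    · simp
  · rw [if_neg h, if_neg fun h1 => h (h1.mono inter_subset_left)]

lemma Supp.E_inter {X Y : Finset ι} {M : Op d} (h : Supp Y M) : Supp (X ∩ Y) (E X M) := by
  rw [← h.E_eq, E_E]; exact supp_E _ _

lemma E_univ (M : Op d) : E univ M = M := (supp_univ M).E_eq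

lemma mg_mg (X Y : Finset ι) (ω : Op d) :
    mg X (mg Y ω) = (dim d (X ∪ Y)ᶜ : ℂ) • mg (X ∩ Y) ω := by
  rw [mg_eq_E, mg_eq_E, mg_eq_E, E_smul, E_E, smul_smul, smul_smul, compl_union, compl_inter,
    ← Nat.cast_mul, ← Nat.cast_mul, ← dim_union_inter, mul_comm]

lemma red_E {e : κ ↪ ι} {Y : Finset ι} (h : rg e ⊆ Y) (ω : Op d) : red e (E Y ω) = red e ω :=
  eq_red fun m => by rw [← trace_emb_mul, ((supp_emb e m).mono h).trace_mul_E]

/-- **twirl** -/
theorem exists_twirl (X : Finset ι) : ∃ (G : Type) (_ : Fintype G) (_ : Nonempty G)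
    (U : G → Op d), (∀ g, Supp Xᶜ (U g) ∧ (U g)ᴴ * U g = 1 ∧ U g * (U g)ᴴ = 1) ∧
      ∀ M, E X M = (Fintype.card G : ℂ)⁻¹ • ∑ g, U g * M * (U g)ᴴ := by
  let e := sb X
  let R := Rest (rg e) d
  refine ⟨(R → Bool) × Equiv.Perm R, inferInstance, inferInstance,
    fun g => ((1 : Op (sub e d)) ⊗ₖ sp g).submatrix (eqv e d) (eqv e d), fun g => ?_, fun M => ?_⟩
  · have h1 : ((1 : Op (sub e d)) ⊗ₖ sp g).submatrix (eqv e d) (eqv e d) *
        (((1 : Op (sub e d)) ⊗ₖ sp g).submatrix (eqv e d) (eqv e d))ᴴ = 1 := by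
      rw [conjTranspose_submatrix, submatrix_mul_equiv, conjTranspose_kronecker,
        ← mul_kronecker_mul, sp_mul_conjTranspose]
      simp
    refine ⟨⟨fun σ τ h => ?_, fun σ τ σ' τ' h h' h2 h3 => ?_⟩, mul_eq_one_comm.1 h1, h1⟩
    · have : res e σ ≠ res e τ := fun h2 => h fun x hx =>
        res_eq_iff.1 h2 x (by simpa [e] using hx)
      simp [this]
    · have e1 : res e σ = res e τ := res_eq_iff.2 fun x hx => h x (by simpa [e] using hx)
      have e2 : res e σ' = res e τ' := res_eq_iff.2 fun x hx => h' x (by simpa [e] using hx)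
      have e3 : off (rg e) σ = off (rg e) σ' :=
        off_eq_iff.2 fun x hx => h2 x (by simpa [e] using hx)
      have e4 : off (rg e) τ = off (rg e) τ' :=
        off_eq_iff.2 fun x hx => h3 x (by simpa [e] using hx)
      simp [e1, e2, e3, e4]
  · have h := congrArg (fun Z => Matrix.submatrix Z (eqv e d) (eqv e d))
      (twirl_eq (M.submatrix (eqv e d).symm (eqv e d).symm))
    have hc : (Fintype.card ((R → Bool) × Equiv.Perm R) : ℂ) ≠ 0 := by
      exact_mod_cast Fintype.card_ne_zero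
    have hR : (Fintype.card R : ℂ) = dim d Xᶜ := by rw [card_rest, rg_sb]
    have h1 : ∀ g : (R → Bool) × Equiv.Perm R,
        ((1 : Op (sub e d)) ⊗ₖ sp g).submatrix (eqv e d) (eqv e d) * M *
          (((1 : Op (sub e d)) ⊗ₖ sp g).submatrix (eqv e d) (eqv e d))ᴴ =
        (((1 : Op (sub e d)) ⊗ₖ sp g) * M.submatrix (eqv e d).symm (eqv e d).symm *
          ((1 : Op (sub e d)) ⊗ₖ sp g)ᴴ).submatrix (eqv e d) (eqv e d) := by
      intro g
      rw [← submatrix_mul_equiv _ _ _ (eqv e d), ← submatrix_mul_equiv _ _ _ (eqv e d),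
        conjTranspose_submatrix]
      simp
    simp only [h1]
    have h2 : mg X M = (ptr (M.submatrix (eqv e d).symm (eqv e d).symm) ⊗ₖ
      (1 : Matrix R R ℂ)).submatrix (eqv e d) (eqv e d) := rfl
    rw [E, h2, ← hR]
    ext σ τ
    have h3 := congrFun (congrFun h σ) τ
    simp only [submatrix_apply, Matrix.smul_apply, Matrix.sum_apply, smul_eq_mul] at h3 ⊢
    have hR' : (Fintype.card R : ℂ) ≠ 0 := by rw [hR]; exact dim_ne_zero _
    field_simp
    exact (mul_comm _ _).trans h3.symm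

lemma norm_of_unitary_le {n : Type} [Fintype n] [DecidableEq n] {U : Matrix n n ℂ}
    (hU : Uᴴ * U = 1) : ‖U‖ ≤ 1 := by
  rw [← norm_ap]
  refine ContinuousLinearMap.opNorm_le_bound _ zero_le_one fun v => ?_
  rw [norm_ap_unitary hU, one_mul]

lemma norm_avg_le {n G : Type} [Fintype n] [DecidableEq n] [Fintype G] [Nonempty G]
    {F : G → Matrix n n ℂ} {C : ℝ} (h : ∀ g, ‖F g‖ ≤ C) :
    ‖(Fintype.card G : ℂ)⁻¹ • ∑ g, F g‖ ≤ C := by
  have hc : (0 : ℝ) < Fintype.card G := by exact_mod_cast Fintype.card_pos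
  rw [norm_smul, norm_inv, Complex.norm_natCast, inv_mul_le_iff₀ hc]
  refine (norm_sum_le _ _).trans ?_
  simpa using Finset.sum_le_sum (s := univ) fun g _ => h g

lemma norm_E_le (X : Finset ι) (M : Op d) : ‖E X M‖ ≤ ‖M‖ := by
  obtain ⟨G, _, _, U, hU, hE⟩ := exists_twirl (d := d) X
  rw [hE]
  refine norm_avg_le fun g => ?_
  have h1 := norm_of_unitary_le (hU g).2.1
  have h2 : ‖(U g)ᴴ‖ ≤ 1 := by rwa [l2_opNorm_conjTranspose]
  calc ‖U g * M * (U g)ᴴ‖ ≤ ‖U g‖ * ‖M‖ * ‖(U g)ᴴ‖ :=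
        (norm_mul_le _ _).trans (by gcongr; exact norm_mul_le _ _)
    _ ≤ 1 * ‖M‖ * 1 := by gcongr
    _ = _ := by ring

/-- almost commuting with the complement means almost supported -/
theorem norm_sub_E_le {X : Finset ι} {M : Op d} {ε : ℝ}
    (h : ∀ B : Op d, Supp Xᶜ B → ‖B‖ ≤ 1 → ‖M * B - B * M‖ ≤ ε) : ‖M - E X M‖ ≤ ε := by
  obtain ⟨G, _, _, U, hU, hE⟩ := exists_twirl (d := d) X
  have hc : (Fintype.card G : ℂ) ≠ 0 := by exact_mod_cast Fintype.card_ne_zero
  have : M - E X M = (Fintype.card G : ℂ)⁻¹ • ∑ g, (M * U g - U g * M) * (U g)ᴴ := by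
    simp only [hE, Matrix.sub_mul, Matrix.mul_assoc M, (hU _).2.2, Matrix.mul_one,
      Finset.sum_sub_distrib, smul_sub, Finset.sum_const, card_univ]
    rw [← Nat.cast_smul_eq_nsmul ℂ, smul_smul, inv_mul_cancel₀ hc, one_smul]
  rw [this]
  refine norm_avg_le fun g => ?_
  have h1 := norm_of_unitary_le (hU g).2.1
  have h2 : ‖(U g)ᴴ‖ ≤ 1 := by rwa [l2_opNorm_conjTranspose]
  have h3 := h _ (hU g).1 h1
  calc _ ≤ ‖M * U g - U g * M‖ * ‖(U g)ᴴ‖ := norm_mul_le _ _
    _ ≤ ε * 1 := by gcongr; exact (norm_nonneg _).trans h3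
    _ = ε := mul_one _

/-- the commutant of the complement -/
theorem supp_of_commute {X : Finset ι} {M : Op d} (h : ∀ B : Op d, Supp Xᶜ B → Commute M B) :
    Supp X M := by
  have := norm_sub_E_le (X := X) (M := M) (ε := 0) fun B hB _ => by
    rw [(h B hB).eq, sub_self, norm_zero]
  rw [norm_le_zero_iff, sub_eq_zero] at this
  rw [this]; exact supp_E _ _

lemma Supp.inter {X Y : Finset ι} {M : Op d} (h : Supp X M) (h' : Supp Y M) :
    Supp (X ∩ Y) M := by rw [← h.E_eq]; exact h'.E_inter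

end nonempty

/-! ### matrix units -/

/-- matrix unit on `Z` -/
def unit (Z : Finset ι) (a b : Cfg d) : Op d :=
  Matrix.of fun σ τ => if Agree Z σ τ ∧ (∀ x ∈ Z, σ x = a x) ∧ (∀ x ∈ Z, τ x = b x) then 1 else 0

lemma supp_unit (Z : Finset ι) (a b : Cfg d) : Supp Z (unit Z a b) where
  zero σ τ h := by simp [unit, h]
  dep σ τ σ' τ' h h' h1 h2 := by
    simp only [unit, of_apply, h, h', true_and]
    refine if_congr (and_congr ?_ ?_) rfl rfl
    · exact forall₂_congr fun x hx => by rw [h1 x hx]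
    · exact forall₂_congr fun x hx => by rw [h2 x hx]

lemma unit_eq_lift (Z : Finset ι) (a b : Cfg d) :
    unit Z a b = lift Z (Matrix.single (res (sb Z) a) (res (sb Z) b) 1) := by
  ext σ τ
  simp only [unit, of_apply, emb_apply, rg_sb, single_apply, res_eq_iff]
  by_cases h : Agree Z σ τ
  · simp only [h, true_and, if_true]
    exact if_congr (and_congr (forall₂_congr fun _ _ => eq_comm)
      (forall₂_congr fun _ _ => eq_comm)) rfl rfl
  · simp [h]

lemma norm_single_le {n : Type} [Fintype n] [DecidableEq n] (a b : n) :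
    ‖(Matrix.single a b 1 : Matrix n n ℂ)‖ ≤ 1 := by
  have : (Matrix.single a b 1 : Matrix n n ℂ) =
      kb (EuclideanSpace.single a 1) (EuclideanSpace.single b 1) := by
    ext i j
    simp only [kb_apply, single_apply, EuclideanSpace.single_apply]
    by_cases h1 : a = i <;> by_cases h2 : b = j <;> simp [h1, h2, eq_comm]
  rw [this]
  simpa using norm_kb_le (EuclideanSpace.single a (1 : ℂ)) (EuclideanSpace.single b 1)

lemma norm_unit_le (Z : Finset ι) (a b : Cfg d) : ‖unit Z a b‖ ≤ 1 := by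
  rw [unit_eq_lift]; exact (norm_emb_le _ _).trans (norm_single_le _ _)

lemma unit_split (Z X : Finset ι) (a b : Cfg d) :
    unit Z a b = unit (Z ∩ X) a b * unit (Z \ X) a b := by
  ext σ τ
  rw [((supp_unit _ a b).mono inter_subset_right).mul_apply_compl
    ((supp_unit _ a b).mono (by intro x; simp))]
  simp only [unit, of_apply, ite_zero_mul_ite_zero, mul_one]
  refine if_congr ⟨fun ⟨h1, h2, h3⟩ => ⟨⟨?_, ?_, ?_⟩, ?_, ?_, ?_⟩,
    fun ⟨⟨h1, h2, h3⟩, h4, h5, h6⟩ => ⟨?_, ?_, ?_⟩⟩ rfl rfl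
  all_goals
    intro x hx
    by_cases hX : x ∈ X <;> by_cases hZ : x ∈ Z <;>
      simp_all [Agree, piecewise]
  all_goals first
    | exact (h6 x hZ hX).symm ▸ (by simpa [hX] using h5 x hZ hX)
    | skip

/-- decomposition of a local operator across a cut -/
theorem Supp.decomp [∀ x, Nonempty (d x)] {Z : Finset ι} {M : Op d} (h : Supp Z M)
    (X : Finset ι) : ∃ (K : Type) (_ : Fintype K) (c : K → ℂ) (a b : K → Op d),
      Fintype.card K = dim d Z ^ 2 ∧ (∀ k, ‖c k‖ ≤ ‖M‖ ∧ Supp (Z ∩ X) (a k) ∧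
        Supp (Z \ X) (b k) ∧ ‖a k‖ ≤ 1 ∧ ‖b k‖ ≤ 1) ∧ M = ∑ k, c k • (a k * b k) := by
  obtain ⟨m, rfl⟩ := h.exists_lift
  obtain ⟨r⟩ : Nonempty (Rest (rg (sb Z)) d) := inferInstance
  let x : Cfg (Q.sub (sb Z) d) → Cfg d := fun a => (eqv (sb Z) d).symm (a, r)
  refine ⟨Cfg (Q.sub (sb Z) d) × Cfg (Q.sub (sb Z) d), inferInstance, fun k => m k.1 k.2,
    fun k => unit (Z ∩ X) (x k.1) (x k.2), fun k => unit (Z \ X) (x k.1) (x k.2), ?_,
    fun k => ⟨?_, supp_unit _ _ _, supp_unit _ _ _, norm_unit_le _ _ _, norm_unit_le _ _ _⟩, ?_⟩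
  · rw [Fintype.card_prod, card_sub_sb, sq]
  · rw [norm_emb]; exact norm_apply_le _ _ _
  · simp only [← unit_split]
    simp only [unit_eq_lift, x, res_symm, ← map_smul, ← map_sum]
    congr 1
    conv_lhs => rw [matrix_eq_sum_single m]
    simp [Fintype.sum_prod_type]

/-! ### the prelude -/

open Crest.MathPhysics.LatticeSpin

variable {q : ℕ}

lemma localOp_eq (X : Finset ι) (m : Matrix (X → Fin q) (X → Fin q) ℂ) :
    localOp X m = lift (d := fun _ => Fin q) X m := by
  ext σ τ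
  refine Eq.trans ?_ (emb_apply (d := fun _ => Fin q) (sb X) m σ τ).symm
  rw [rg_sb]
  rfl

lemma isSupportedOn_iff {X : Finset ι} {M : Op (fun _ : ι => Fin q)} :
    IsSupportedOn M X ↔ Supp X M := by
  rw [supp_iff]
  exact exists_congr fun m => by rw [localOp_eq, eq_comm]

lemma reducedDensity_eq (Ω : Vec (Cfg fun _ : ι => Fin q)) (A : Finset ι) :
    reducedDensity Ω A = red (sb A) (pj Ω) := by
  ext a b
  refine Eq.trans ?_ (red_apply (sb A) (pj Ω) a b).symm
  let f : ({x : ι // x ∉ A} → Fin q) ≃ Rest (rg (sb A)) (fun _ => Fin q) :=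
    Equiv.arrowCongr (Equiv.subtypeEquivRight fun x => by rw [rg_sb]) (Equiv.refl _)
  rw [← Equiv.sum_comp f]
  have key : ∀ (a : A → Fin q) c, (eqv (sb A) fun _ => Fin q).symm (a, f c) = glue A a c := by
    intro a c
    rw [Equiv.symm_apply_eq, eqv_apply]
    refine Prod.ext (funext fun k => ?_) (funext fun k => ?_)
    · simp [res, glue]
    · have hk : k.1 ∉ A := by simpa using k.2
      simp only [off, glue, hk, dif_neg, not_false_eq_true]
      rfl
  exact Finset.sum_congr rfl fun c _ => by rw [key, key]; rfl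

end Crest.Agent.N336.Q
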