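import Crest.Agent.N336.Q.Ent
import Crest.Agent.N336.Defs

/-!
# Row 336: product states, the two-sheet system and the overlap bound (helper34)

* T1 `trace_mul_disjoint`, T4 `fc_of_resolution`, `ent_mg_mul`, T5 `overlap`
* sheets `sh b`, `e1 Z`, `e2 Z`; T2 `pj_swp`, `norm_swp`; T3 `red_swp`, `mg_piZ`, `SX_piZ`
-/

set_option autoImplicit false
set_option linter.unusedSectionVars false

open Matrix Finset
open scoped Kronecker ComplexOrder MatrixOrder Matrix.Norms.L2Operator InnerProductSpace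

namespace Crest.Agent.N336.Q

section gen

variable {ι κ κ' : Type} [Fintype ι] [DecidableEq ι] [Fintype κ] [DecidableEq κ]
  [Fintype κ'] [DecidableEq κ']
  {d : ι → Type} [∀ x, Fintype (d x)] [∀ x, DecidableEq (d x)] [∀ x, Nonempty (d x)]

lemma Supp.exists_scalar {M : Op d} (h : Supp ∅ M) : ∃ c : ℂ, M = c • 1 := by
  obtain ⟨σ₀⟩ : Nonempty (Cfg d) := inferInstance
  refine ⟨M σ₀ σ₀, ?_⟩
  ext σ τ
  by_cases e : σ = τ
  · subst e
    simpa using h.dep _ _ _ _ (Agree.refl _ _) (Agree.refl _ _) (by simp) (by simp)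
  · simpa [e] using h.zero σ τ fun h' => e (funext fun x => h' x (notMem_empty x))

/-- T1 -/
theorem trace_mul_disjoint {X Y : Finset ι} {M N : Op d} (hM : Supp X M) (hN : Supp Y N)
    (hd : Disjoint X Y) : (dim d univ : ℂ) * trace (M * N) = trace M * trace N := by
  have h1 : Supp (X ∩ Y) (E X N) := hN.E_inter
  rw [disjoint_iff_inter_eq_empty.1 hd] at h1
  obtain ⟨c, hc⟩ := h1.exists_scalar
  rw [← hM.trace_mul_E, ← trace_E X N, hc, Matrix.mul_smul, Matrix.mul_one, trace_smul, trace_smul,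
    trace_one, card_cfg, smul_eq_mul, smul_eq_mul]
  ring

lemma dim_compl_mul {X Y : Finset ι} (hd : Disjoint X Y) :
    dim d Xᶜ * dim d Yᶜ = dim d univ * dim d (X ∪ Y)ᶜ := by
  rw [← dim_union_inter, ← compl_inter, disjoint_iff_inter_eq_empty.1 hd, compl_empty, compl_union]

lemma trace_emb_mul_emb {e : κ ↪ ι} {e' : κ' ↪ ι} (hd : Disjoint (rg e) (rg e'))
    (a : Op (sub e d)) (b : Op (sub e' d)) :
    trace (emb e a * emb e' b) = (dim d (rg e ∪ rg e')ᶜ : ℂ) * (trace a * trace b) := by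
  refine mul_left_cancel₀ (dim_ne_zero (d := d) univ) ?_
  rw [trace_mul_disjoint (supp_emb e a) (supp_emb e' b) hd, trace_emb, trace_emb, card_rest,
    card_rest, ← mul_assoc (dim d univ : ℂ), ← Nat.cast_mul, ← dim_compl_mul hd, Nat.cast_mul]
  ring

lemma emb_mul_emb_apply {e : κ ↪ ι} {e' : κ' ↪ ι} (h : rg e' = (rg e)ᶜ)
    (a : Op (sub e d)) (b : Op (sub e' d)) (σ τ : Cfg d) :
    (emb e a * emb e' b) σ τ = a (res e σ) (res e τ) * b (res e' σ) (res e' τ) := by
  rw [(supp_emb e a).mul_apply_compl (h ▸ supp_emb e' b), emb_apply, emb_apply, if_pos, if_pos]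
  · congr 2
    · exact res_eq_iff.2 fun x hx => piecewise_eq_of_mem _ _ _ hx
    · exact res_eq_iff.2 fun x hx => piecewise_eq_of_notMem _ _ _ (by rwa [h, mem_compl] at hx)
  · exact fun x hx => piecewise_eq_of_mem _ _ _ (by rwa [h, mem_compl, not_not] at hx)
  · exact fun x hx => (piecewise_eq_of_notMem _ _ _ hx).symm

lemma trace_mul_mg_mg {A F : Finset ι} (hd : Disjoint A F) {a b : Op d} (ha : Supp A a)
    (hb : Supp F b) (w w' : Op d) : trace (a * b * (mg A w * mg F w')) =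
      (dim d (A ∪ F)ᶜ : ℂ) * (trace (a * w) * trace (b * w')) := by
  refine mul_left_cancel₀ (dim_ne_zero (d := d) univ) ?_
  have : a * b * (mg A w * mg F w') = (a * mg A w) * (b * mg F w') := by
    rw [Matrix.mul_assoc, ← Matrix.mul_assoc b, (hb.commute (supp_mg A w) hd.symm).eq]
    simp only [Matrix.mul_assoc]
  rw [this, trace_mul_disjoint (ha.mul (supp_mg A w)) (hb.mul (supp_mg F w')) hd, ha.trace_mul_mg,
    hb.trace_mul_mg, ← mul_assoc (dim d univ : ℂ), ← Nat.cast_mul, ← dim_compl_mul hd, Nat.cast_mul]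
  ring

/-- pairings with product operators suffice -/
lemma trace_ext_prod {A F : Finset ι} {φ ψ : Op d →ₗ[ℂ] ℂ}
    (h : ∀ a b, Supp A a → Supp F b → φ (a * b) = ψ (a * b)) {O : Op d} (hO : Supp (A ∪ F) O) :
    φ O = ψ O := by
  obtain ⟨K, _, c, a, b, -, h1, rfl⟩ := hO.decomp A
  simp only [map_sum, map_smul]
  refine Finset.sum_congr rfl fun k _ => ?_
  rw [h _ _ ((h1 k).2.1.mono inter_subset_right) ((h1 k).2.2.1.mono fun x => by
    simp only [mem_sdiff, mem_union]; tauto)]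

/-- the pairing with a fixed operator -/
noncomputable def trL (M : Op d) : Op d →ₗ[ℂ] ℂ where
  toFun O := trace (O * M)
  map_add' a b := by rw [Matrix.add_mul, trace_add]
  map_smul' c a := by rw [Matrix.smul_mul, trace_smul]; rfl

lemma Supp.ext_prod {A F : Finset ι} {M N : Op d} (hM : Supp (A ∪ F) M) (hN : Supp (A ∪ F) N)
    (h : ∀ a b, Supp A a → Supp F b → trace (a * b * M) = trace (a * b * N)) : M = N :=
  hM.ext_trace hN fun _ hO => trace_ext_prod (φ := trL M) (ψ := trL N) h hO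

/-- the product of the marginals on `Z` and `Zᶜ` -/
noncomputable def piZ (Z : Finset ι) (w : Op d) : Op d := mg Z w * mg Zᶜ w

lemma trace_mul_piZ {Z : Finset ι} {a b : Op d} (ha : Supp Z a) (hb : Supp Zᶜ b) (w : Op d) :
    trace (a * b * piZ Z w) = trace (a * w) * trace (b * w) := by
  rw [piZ, trace_mul_mg_mg disjoint_compl_right ha hb, union_compl, compl_univ, dim_empty]
  simp

lemma mg_piZ {A F Z : Finset ι} (hA : A ⊆ Z) (hF : F ⊆ Zᶜ) (w : Op d) :
    mg (A ∪ F) (piZ Z w) = mg A w * mg F w :=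
  (supp_mg _ _).ext_prod ((supp_mg A w).mul_union (supp_mg F w)) fun a b ha hb => by
    rw [(ha.mul_union hb).trace_mul_mg, trace_mul_piZ (ha.mono hA) (hb.mono hF),
      trace_mul_mg_mg (disjoint_compl_right.mono hA hF) ha hb]

lemma posSemidef_mul_of_commute {n : Type} [Fintype n] [DecidableEq n] {A B : Matrix n n ℂ}
    (hA : A.PosSemidef) (hB : B.PosSemidef) (h : Commute A B) : (A * B).PosSemidef :=
  (Commute.mul_nonneg hA.nonneg hB.nonneg h).posSemidef

lemma Dens.piZ {w : Op d} (h : Dens w) (Z : Finset ι) : Dens (piZ Z w) :=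
  ⟨posSemidef_mul_of_commute (mg_posSemidef _ h.psd) (mg_posSemidef _ h.psd)
    ((supp_mg _ _).commute (supp_mg _ _) disjoint_compl_right), by
    simpa [h.tr] using trace_mul_piZ (Supp.one Z) (Supp.one Zᶜ) w⟩

lemma piZ_empty {w : Op d} (h : Dens w) : piZ ∅ w = w :=
  (supp_univ _).ext_trace (supp_univ _) fun O _ => by
    simpa [h.tr] using trace_mul_piZ (Supp.one ∅) (b := O) (by simpa using supp_univ O) w

/-- T4 -/
theorem fc_of_resolution {n K : Type} [Fintype n] [DecidableEq n] [Fintype K] [DecidableEq K]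
    {R : K → Matrix n n ℂ} (h1 : ∀ i, (R i).IsHermitian)
    (h2 : ∀ i j, R i * R j = if i = j then R i else 0) (h3 : ∑ i, R i = 1) (l : K → ℝ)
    (f : ℝ → ℂ) : fc f (∑ i, (l i : ℂ) • R i) = ∑ i, f (l i) • R i := by
  have hA : (∑ i, (l i : ℂ) • R i).IsHermitian := by
    unfold Matrix.IsHermitian
    simp [conjTranspose_sum, (h1 _).eq]
  rw [← Matrix.mul_one (fc _ _), ← h3, Matrix.mul_sum]
  refine Finset.sum_congr rfl fun j _ => ?_
  have hD : (diagonal fun _ : n => (l j : ℂ)).IsHermitian := by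
    rw [isHermitian_diagonal_iff]; intro i; simp [IsSelfAdjoint]
  rw [fc_intertwine f hA hD (V := R j), fc_diagonal f fun _ => l j, ← smul_one_eq_diagonal,
    Matrix.mul_smul, Matrix.mul_one]
  simp [Matrix.sum_mul, h2, ← smul_one_eq_diagonal]

/-- spectral projections of the marginal on `X` -/
noncomputable def spP (X : Finset ι) (w : Op d) (j : Cfg (sub (sb X) d)) : Op d :=
  lift X (pj (evec (red (sb X) w) j))

lemma supp_spP (X : Finset ι) (w : Op d) (j) : Supp X (spP X w j) := supp_lift _ _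

lemma spP_posSemidef (X : Finset ι) (w : Op d) (j) : (spP X w j).PosSemidef :=
  emb_posSemidef _ (pj_posSemidef _)

lemma spP_mul (X : Finset ι) (w : Op d) (i j) :
    spP X w i * spP X w j = if i = j then spP X w i else 0 := by
  rw [spP, spP, ← map_mul, pj, pj, mul_kb, ap_kb, inner_evec, kb_smul_left]
  split_ifs with h
  · rw [one_smul, h]
  · rw [zero_smul, map_zero]

lemma sum_spP (X : Finset ι) (w : Op d) : ∑ j, spP X w j = 1 := by
  simp only [spP, ← map_sum, sum_pj_evec, map_one]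

lemma fc_mg (X : Finset ι) {w : Op d} (h : w.IsHermitian) (f : ℝ → ℂ) :
    fc f (mg X w) = ∑ j, f (ev (red (sb X) w) j) • spP X w j := by
  rw [mg, ← emb_fc _ _ (red_isHermitian _ h), fc_eq_sum]
  simp only [map_sum, map_smul, spP]

lemma mg_eq_sum (X : Finset ι) {w : Op d} (h : w.IsHermitian) :
    mg X w = ∑ j, (ev (red (sb X) w) j : ℂ) • spP X w j :=
  (fc_id (mg_isHermitian X h)).symm.trans (fc_mg X h _)

lemma trace_spP (X : Finset ι) (w : Op d) (j) : trace (spP X w j) = dim d Xᶜ := by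
  rw [spP, trace_lift, trace_pj, norm_evec]; simp

lemma trace_spP_mul (X : Finset ι) {w : Op d} (h : w.IsHermitian) (j) :
    trace (spP X w j * w) = ev (red (sb X) w) j := by
  rw [spP, trace_emb_mul, trace_kb_mul, ap_evec (red_isHermitian _ h), inner_smul_right, inner_evec]
  simp

lemma fc_mg_mul {A F : Finset ι} (hd : Disjoint A F) {w w' : Op d} (h : w.IsHermitian)
    (h' : w'.IsHermitian) (f : ℝ → ℂ) : fc f (mg A w * mg F w') =
      ∑ j, ∑ k, f (ev (red (sb A) w) j * ev (red (sb F) w') k) • (spP A w j * spP F w' k) := by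
  have hc : ∀ j k, Commute (spP A w j) (spP F w' k) := fun j k =>
    (supp_spP _ _ _).commute (supp_spP _ _ _) hd
  have := fc_of_resolution (R := fun p : _ × _ => spP A w p.1 * spP F w' p.2)
    (fun p => (posSemidef_mul_of_commute (spP_posSemidef _ _ _) (spP_posSemidef _ _ _) (hc _ _)).1)
    (fun p p' => by
      rw [Matrix.mul_assoc, ← Matrix.mul_assoc (spP F w' p.2), ← (hc _ _).eq, Matrix.mul_assoc,
        ← Matrix.mul_assoc, spP_mul, spP_mul]
      by_cases e1 : p.1 = p'.1 <;> by_cases e2 : p.2 = p'.2 <;> simp [e1, e2, Prod.ext_iff])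
    (by rw [Fintype.sum_prod_type, ← Finset.sum_mul_sum, sum_spP, sum_spP, Matrix.mul_one])
    (fun p => ev (red (sb A) w) p.1 * ev (red (sb F) w') p.2) f
  rw [Fintype.sum_prod_type, Fintype.sum_prod_type] at this
  rw [← this, mg_eq_sum A h, mg_eq_sum F h', Finset.sum_mul_sum]
  simp only [smul_mul_smul_comm, Complex.ofReal_mul]

lemma trace_spP_spP {A F : Finset ι} (hd : Disjoint A F) (w w' : Op d) (j k) :
    trace (spP A w j * spP F w' k) = dim d (A ∪ F)ᶜ := by
  refine mul_left_cancel₀ (dim_ne_zero (d := d) univ) ?_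
  rw [trace_mul_disjoint (supp_spP _ _ _) (supp_spP _ _ _) hd, trace_spP, trace_spP,
    ← Nat.cast_mul, dim_compl_mul hd, Nat.cast_mul]

theorem ent_mg_mul {A F : Finset ι} (hd : Disjoint A F) {w w' : Op d} (h : Dens w) (h' : Dens w') :
    ent (mg A w * mg F w') = dim d (A ∪ F)ᶜ * (SX A w + SX F w') := by
  rw [ent_eq_trace, fr, fc_mg_mul hd h.herm h'.herm]
  simp only [trace_sum, trace_smul, trace_spP_spP hd, smul_eq_mul, Complex.re_sum,
    Complex.re_ofReal_mul, Complex.natCast_re]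
  simp only [Real.negMulLog_mul, ← Finset.sum_mul,
    Finset.sum_add_distrib, ← Finset.mul_sum, (h.red _).sum_ev, (h'.red _).sum_ev, one_mul, SX, ent]
  ring

/-- entropies of the product state -/
theorem SX_piZ {A F Z : Finset ι} (hA : A ⊆ Z) (hF : F ⊆ Zᶜ) {w : Op d} (h : Dens w) :
    SX (A ∪ F) (piZ Z w) = SX A w + SX F w := by
  refine mul_left_cancel₀ (dim_pos_real (d := d) (A ∪ F)ᶜ).ne' ?_
  rw [← ent_mg _ (h.piZ Z).herm, mg_piZ hA hF, ent_mg_mul (disjoint_compl_right.mono hA hF) h h]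

lemma fr_sqrt_mg_mul {A F : Finset ι} (hd : Disjoint A F) {w w' : Op d} (h : w.PosSemidef)
    (h' : w'.PosSemidef) : fr Real.sqrt (mg A w * mg F w') =
      fr Real.sqrt (mg A w) * fr Real.sqrt (mg F w') := by
  rw [fr, fc_mg_mul hd h.1 h'.1, fr, fr, fc_mg A h.1, fc_mg F h'.1, Finset.sum_mul_sum]
  simp only [smul_mul_smul_comm,
    Real.sqrt_mul (ev_nonneg (red_posSemidef _ h) _), Complex.ofReal_mul]

lemma jensen3 {I J K : Type} [Fintype I] [Fintype J] [Fintype K] {t : J → K → I → ℝ} {l : I → ℝ}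
    {a : J → ℝ} {b : K → ℝ} {D : ℝ} (ht : ∀ j k i, 0 ≤ t j k i) (hl : ∀ i, 0 ≤ l i)
    (h0 : ∑ i, l i = 1) (h1 : ∀ i, ∑ j, ∑ k, t j k i = D)
    (h2 : ∀ j, ∑ k, ∑ i, l i * t j k i = D * a j) (h3 : ∀ k, ∑ j, ∑ i, l i * t j k i = D * b k)
    (hD : 0 < D) : D * Real.exp (-((∑ j, Real.negMulLog (a j)) + (∑ k, Real.negMulLog (b k))
      - ∑ i, Real.negMulLog (l i)) / 2) ≤
      ∑ j, ∑ k, ∑ i, Real.sqrt (a j) * Real.sqrt (b k) * Real.sqrt (l i) * t j k i := by
  set m := -((∑ j, Real.negMulLog (a j)) + (∑ k, Real.negMulLog (b k))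
      - ∑ i, Real.negMulLog (l i)) / 2 with hm
  have hp : ∀ j k i, 0 ≤ l i * t j k i := fun j k i => mul_nonneg (hl i) (ht j k i)
  have key : ∀ j k i, Real.exp m * ((1 - m) * (l i * t j k i) + (Real.log (a j) * (l i * t j k i)
      + Real.log (b k) * (l i * t j k i) + Real.negMulLog (l i) * t j k i) / 2) ≤
      Real.sqrt (a j) * Real.sqrt (b k) * Real.sqrt (l i) * t j k i := by
    intro j k i
    rcases (hp j k i).eq_or_lt with h | h
    · have : Real.negMulLog (l i) * t j k i = 0 := by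
        rw [Real.negMulLog, mul_right_comm, neg_mul, ← h]; simp
      rw [this, ← h]
      have := ht j k i
      simp only [mul_zero, add_zero, zero_div]
      positivity
    have hli : 0 < l i := (hl i).lt_of_ne fun e => by simp [← e] at h
    have ha : 0 < a j := pos_of_mul_pos_left (b := D) (by
      rw [mul_comm, ← h2 j]
      exact h.trans_le ((Finset.single_le_sum (fun i _ => hp j k i) (mem_univ i)).trans
        (Finset.single_le_sum (f := fun k => ∑ i, l i * t j k i)
          (fun k _ => Finset.sum_nonneg fun i _ => hp j k i) (mem_univ k)))) hD.le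
    have hb : 0 < b k := pos_of_mul_pos_left (b := D) (by
      rw [mul_comm, ← h3 k]
      exact h.trans_le ((Finset.single_le_sum (fun i _ => hp j k i) (mem_univ i)).trans
        (Finset.single_le_sum (f := fun j => ∑ i, l i * t j k i)
          (fun j _ => Finset.sum_nonneg fun i _ => hp j k i) (mem_univ j)))) hD.le
    set x := (Real.log (a j) + Real.log (b k) - Real.log (l i)) / 2 with hx
    have e1 : Real.sqrt (a j) * Real.sqrt (b k) * Real.sqrt (l i) = l i * Real.exp x := by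
      rw [← Real.exp_log (Real.sqrt_pos.2 ha), ← Real.exp_log (Real.sqrt_pos.2 hb),
        ← Real.exp_log (Real.sqrt_pos.2 hli), Real.log_sqrt ha.le, Real.log_sqrt hb.le,
        Real.log_sqrt hli.le, ← Real.exp_add, ← Real.exp_add]
      conv_rhs => rw [← Real.exp_log hli, ← Real.exp_add]
      congr 1; rw [hx]; ring
    have e2 : Real.exp m * (x - m + 1) ≤ Real.exp x := by
      calc _ ≤ Real.exp m * Real.exp (x - m) :=
            mul_le_mul_of_nonneg_left (Real.add_one_le_exp _) (Real.exp_pos m).le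
        _ = _ := by rw [← Real.exp_add]; congr 1; ring
    calc _ = Real.exp m * (x - m + 1) * (l i * t j k i) := by rw [hx, Real.negMulLog]; ring
      _ ≤ Real.exp x * (l i * t j k i) := mul_le_mul_of_nonneg_right e2 h.le
      _ = _ := by rw [e1]; ring
  refine le_trans (le_of_eq ?_) (Finset.sum_le_sum fun j _ => Finset.sum_le_sum fun k _ =>
    Finset.sum_le_sum fun i _ => key j k i)
  have s0 : ∀ c : I → ℝ, ∑ j, ∑ k, ∑ i, c i * t j k i = D * ∑ i, c i := fun c => by
    rw [Finset.mul_sum, Finset.sum_congr rfl fun j _ => Finset.sum_comm, Finset.sum_comm]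
    exact Finset.sum_congr rfl fun i _ => by simp only [← Finset.mul_sum, h1]; ring
  have s1 : ∑ j, ∑ k, ∑ i, Real.log (a j) * (l i * t j k i) = -(D * ∑ j, Real.negMulLog (a j)) := by
    simp only [← Finset.mul_sum, h2]
    rw [Finset.mul_sum, ← Finset.sum_neg_distrib]
    exact Finset.sum_congr rfl fun j _ => by rw [Real.negMulLog]; ring
  have s2 : ∑ j, ∑ k, ∑ i, Real.log (b k) * (l i * t j k i) = -(D * ∑ k, Real.negMulLog (b k)) := by
    rw [Finset.sum_comm]
    simp only [← Finset.mul_sum, h3]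
    rw [Finset.mul_sum, ← Finset.sum_neg_distrib]
    exact Finset.sum_congr rfl fun j _ => by rw [Real.negMulLog]; ring
  have s3 : ∑ j, ∑ k, ∑ i, (1 - m) * (l i * t j k i) = (1 - m) * D := by
    simp only [← Finset.mul_sum]
    rw [s0, h0, mul_one]
  simp only [← Finset.mul_sum, Finset.sum_add_distrib, ← Finset.sum_div] at s1 s2 s3 ⊢
  rw [s1, s2, s3, s0, hm]
  ring

/-- T5: the overlap of the product of the marginals with the joint marginal -/
theorem overlap {A F : Finset ι} (hd : Disjoint A F) {w : Op d} (h : Dens w) :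
    dim d (A ∪ F)ᶜ * Real.exp (-(SX A w + SX F w - SX (A ∪ F) w) / 2) ≤
      (trace (fr Real.sqrt (mg A w) * fr Real.sqrt (mg F w) * fr Real.sqrt (mg (A ∪ F) w))).re := by
  have hPQ : ∀ j k, (spP A w j * spP F w k).PosSemidef := fun j k =>
    posSemidef_mul_of_commute (spP_posSemidef _ _ _) (spP_posSemidef _ _ _)
      ((supp_spP _ _ _).commute (supp_spP _ _ _) hd)
  have e : ∀ M : Op d, ∑ i, ev (red (sb (A ∪ F)) w) i * (trace (M * spP (A ∪ F) w i)).re =
      (trace (M * mg (A ∪ F) w)).re := fun M => by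
    rw [mg_eq_sum _ h.herm]
    simp only [Matrix.mul_sum, Matrix.mul_smul, trace_sum, trace_smul, Complex.re_sum, smul_eq_mul,
      Complex.re_ofReal_mul]
  refine (jensen3 (t := fun j k i => (trace (spP A w j * spP F w k * spP (A ∪ F) w i)).re)
    (fun j k i => re_trace_mul_nonneg (hPQ j k) (spP_posSemidef _ _ _))
    (ev_nonneg (h.red (sb (A ∪ F))).psd) (h.red _).sum_ev (fun i => ?_) (fun j => ?_) (fun k => ?_)
    (dim_pos_real (d := d) (A ∪ F)ᶜ)).trans (le_of_eq ?_)
  · simp only [← Complex.re_sum, ← trace_sum, ← Matrix.sum_mul, ← Matrix.mul_sum, sum_spP,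
      Matrix.one_mul, trace_spP, Complex.natCast_re]
  · simp only [e, ← Complex.re_sum, ← trace_sum, ← Matrix.sum_mul, ← Matrix.mul_sum, sum_spP,
      Matrix.mul_one]
    rw [((supp_spP A w j).mono subset_union_left).trace_mul_mg, trace_spP_mul _ h.herm]
    norm_cast
  · simp only [e, ← Complex.re_sum, ← trace_sum, ← Matrix.sum_mul, sum_spP, Matrix.one_mul]
    rw [((supp_spP F w k).mono subset_union_right).trace_mul_mg, trace_spP_mul _ h.herm]
    norm_cast
  · rw [fr, fr, fr, fc_mg _ h.herm, fc_mg _ h.herm, fc_mg _ h.herm]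
    simp only [Matrix.sum_mul, Matrix.mul_sum, smul_mul_smul_comm, trace_sum,
      trace_smul, Complex.re_sum, smul_eq_mul, ← Complex.ofReal_mul, Complex.re_ofReal_mul]
    rw [Finset.sum_congr rfl fun j _ => Finset.sum_comm, Finset.sum_comm]
    exact Finset.sum_congr rfl fun i _ => Finset.sum_comm

end gen

/-! ### two sheets -/

section sheets

variable {Λ : Type} [Fintype Λ] [DecidableEq Λ] {q : ℕ}

/-- the sheet `b` -/
def sh (b : Bool) : Λ ↪ Bool × Λ := ⟨fun x => (b, x), fun _ _ h => congrArg Prod.snd h⟩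
/-- the sheet read by the first factor of `swp Z` -/
def e1 (Z : Finset Λ) : Λ ↪ Bool × Λ := ⟨fun x => (decide (x ∈ Z), x), fun _ _ h => congrArg Prod.snd h⟩
/-- the sheet read by the second factor of `swp Z` -/
def e2 (Z : Finset Λ) : Λ ↪ Bool × Λ :=
  ⟨fun x => (!decide (x ∈ Z), x), fun _ _ h => congrArg Prod.snd h⟩

@[simp] lemma sh_apply (b : Bool) (x : Λ) : sh b x = (b, x) := rfl
@[simp] lemma e1_apply (Z : Finset Λ) (x : Λ) : e1 Z x = (decide (x ∈ Z), x) := rfl
@[simp] lemma e2_apply (Z : Finset Λ) (x : Λ) : e2 Z x = (!decide (x ∈ Z), x) := rfl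

lemma rg_e2 (Z : Finset Λ) : rg (e2 Z) = (rg (e1 Z))ᶜ := by
  ext ⟨b, x⟩
  cases b <;> simp

lemma disjoint_e1_e2 (Z : Finset Λ) : Disjoint (rg (e1 Z)) (rg (e2 Z)) :=
  rg_e2 Z ▸ disjoint_compl_right

variable [Nonempty (Fin q)]

lemma trace_e1_e2 (Z : Finset Λ) (a b : Op fun _ : Λ => Fin q) :
    trace (emb (d := fun _ => Fin q) (e1 Z) a * emb (d := fun _ => Fin q) (e2 Z) b) =
      trace a * trace b := by
  rw [trace_emb_mul_emb (d := fun _ => Fin q) (disjoint_e1_e2 Z) a b, rg_e2, union_compl,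
    compl_univ, dim_empty, Nat.cast_one, one_mul]

lemma commute_e1_e2 (Z : Finset Λ) (a b : Op fun _ : Λ => Fin q) :
    Commute (emb (d := fun _ => Fin q) (e1 Z) a) (emb (d := fun _ => Fin q) (e2 Z) b) :=
  (supp_emb (d := fun _ => Fin q) _ a).commute (supp_emb (d := fun _ => Fin q) _ b)
    (disjoint_e1_e2 Z)

/-- T2 -/
theorem pj_swp (Z : Finset Λ) (Ω : N336.Vec Λ q) : pj (swp Z Ω) =
    emb (d := fun _ => Fin q) (e1 Z) (pj Ω) * emb (d := fun _ => Fin q) (e2 Z) (pj Ω) := by
  ext σ τ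
  rw [emb_mul_emb_apply (d := fun _ => Fin q) (rg_e2 Z)]
  change (Ω (res (e1 Z) σ) * Ω (res (e2 Z) σ)) * star (Ω (res (e1 Z) τ) * Ω (res (e2 Z) τ)) =
    (Ω (res (e1 Z) σ) * star (Ω (res (e1 Z) τ))) * (Ω (res (e2 Z) σ) * star (Ω (res (e2 Z) τ)))
  rw [star_mul']
  ring

theorem norm_swp (Z : Finset Λ) {Ω : N336.Vec Λ q} (h : ‖Ω‖ = 1) : ‖swp Z Ω‖ = 1 := by
  have h1 := trace_pj (swp Z Ω)
  rw [pj_swp, trace_e1_e2, (dens_pj h).tr, mul_one] at h1
  exact (pow_eq_one_iff_of_nonneg (norm_nonneg _) two_ne_zero).1 (by exact_mod_cast h1.symm)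

lemma emb_sh_of_supp {Z : Finset Λ} {a : Op fun _ : Λ => Fin q} (ha : Supp Z a) :
    emb (d := fun _ => Fin q) (sh false) a = emb (d := fun _ => Fin q) (e2 Z) a :=
  emb_congr (fun k hk => by simp [hk]) ha

lemma emb_sh_of_supp_compl {Z : Finset Λ} {b : Op fun _ : Λ => Fin q} (hb : Supp Zᶜ b) :
    emb (d := fun _ => Fin q) (sh false) b = emb (d := fun _ => Fin q) (e1 Z) b :=
  emb_congr (fun k hk => by simpa using hk) hb

/-- T3 -/
theorem red_swp (Z : Finset Λ) (Ω : N336.Vec Λ q) :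
    red (d := fun _ => Fin q) (sh false) (pj (swp Z Ω)) = piZ (d := fun _ => Fin q) Z (pj Ω) := by
  refine ((supp_univ (d := fun _ : Λ => Fin q) _).mono (union_compl Z).ge).ext_prod
    ((supp_univ _).mono (union_compl Z).ge) fun a b ha hb => ?_
  rw [trace_mul_piZ ha hb]
  refine (trace_emb_mul (d := fun _ => Fin q) (sh false) (a * b) _).symm.trans ?_
  rw [map_mul, emb_sh_of_supp ha, emb_sh_of_supp_compl hb, pj_swp, mul_comm, ← trace_e1_e2 Z,
    ← (commute_e1_e2 Z b a).eq, map_mul (emb (d := fun _ => Fin q) (e1 Z)),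
    map_mul (emb (d := fun _ => Fin q) (e2 Z)), Matrix.mul_assoc, Matrix.mul_assoc,
    ← Matrix.mul_assoc (emb (d := fun _ => Fin q) (e2 Z) a), ← (commute_e1_e2 Z (pj Ω) a).eq, Matrix.mul_assoc]

/-- entropies of the exchanged state on the sheet `false` -/
theorem SX_swp {A F Z : Finset Λ} (hA : A ⊆ Z) (hF : F ⊆ Zᶜ) {Ω : N336.Vec Λ q} (h : ‖Ω‖ = 1) :
    SX (d := fun _ => Fin q) ((A ∪ F).map (sh false)) (pj (swp Z Ω)) =
      SX (d := fun _ => Fin q) A (pj Ω) + SX (d := fun _ => Fin q) F (pj Ω) := by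
  rw [SX_map _ _ (pj_isHermitian _), red_swp]
  exact SX_piZ hA hF (dens_pj h)

end sheets

end Crest.Agent.N336.Q
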