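import Crest.Agent.N336.Q.EntM
import Crest.Agent.N336.Q.Cond

/-!
# Row 336, core: entropies of subsystems (helper87)

* `Dens ω`, `SX X ω` (entropy of the marginal on `X`), `SX_map`, `SX_compl` (pure states)
* `SX_submod` (strong subadditivity), `cond_sum_le` (concavity of conditional entropies)
* `ent_le_log_of_proj`, `abs_cond_le`, `afw` (Alicki-Fannes-Winter, rank version)
-/

set_option autoImplicit false
set_option linter.unusedSectionVars false

open Matrix Finset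
open scoped Kronecker ComplexOrder MatrixOrder Matrix.Norms.L2Operator InnerProductSpace

namespace Crest.Agent.N336.Q

variable {ι κ : Type} [Fintype ι] [DecidableEq ι] [Fintype κ] [DecidableEq κ]
  {d : ι → Type} [∀ x, Fintype (d x)] [∀ x, DecidableEq (d x)] [∀ x, Nonempty (d x)]

/-- entropy of the marginal on `X` -/
noncomputable def SX (X : Finset ι) (ω : Op d) : ℝ := ent (red (sb X) ω)

lemma Dens.red {ω : Op d} (h : Dens ω) (e : κ ↪ ι) : Dens (red e ω) :=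
  ⟨red_posSemidef e h.psd, by rw [trace_red, h.tr]⟩

lemma Dens.E {ω : Op d} (h : Dens ω) (X : Finset ι) : Dens (E X ω) :=
  ⟨E_posSemidef X h.psd, by rw [trace_E, h.tr]⟩

lemma emb_fr (e : κ ↪ ι) (g : ℝ → ℝ) {m : Op (sub e d)} (h : m.IsHermitian) :
    emb e (fr g m) = fr g (emb e m) := emb_fc e _ h

lemma ent_emb (e : κ ↪ ι) {m : Op (sub e d)} (h : m.IsHermitian) :
    ent (emb e m) = dim d (rg e)ᶜ * ent m := by
  rw [ent_eq_trace, ent_eq_trace, ← emb_fr e _ h, trace_emb, card_rest]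
  simp

lemma rel_emb (e : κ ↪ ι) {a b : Op (sub e d)} (ha : a.IsHermitian) (hb : b.IsHermitian) :
    rel (emb e a) (emb e b) = dim d (rg e)ᶜ * rel a b := by
  rw [rel, rel, ent_emb e ha, ← emb_fr e _ hb, ← map_mul, trace_emb, card_rest]
  simp; ring

lemma ent_mg (X : Finset ι) {ω : Op d} (h : ω.IsHermitian) :
    ent (mg X ω) = dim d Xᶜ * SX X ω := by
  rw [mg, ent_emb _ (red_isHermitian _ h), rg_sb, SX]

lemma ent_red (e : κ ↪ ι) {ω : Op d} (h : ω.IsHermitian) : ent (red e ω) = SX (rg e) ω := by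
  have h1 := ent_emb e (red_isHermitian e h)
  rw [emb_red_eq_mg, ent_mg _ h] at h1
  exact (mul_left_cancel₀ (dim_pos_real _).ne' h1).symm

lemma SX_map (e : κ ↪ ι) (Y : Finset κ) {ω : Op d} (h : ω.IsHermitian) :
    SX (Y.map e) ω = SX Y (red e ω) := by
  have h1 := ent_red ((sb Y).trans e) h
  rw [rg_trans, rg_sb] at h1
  rw [← h1, SX]
  exact congrArg ent (red_red (sb Y) e ω).symm

lemma SX_eq (X : Finset ι) {ω : Op d} (h : ω.IsHermitian) :
    SX X ω = -(trace (ω * fr Real.log (mg X ω))).re := by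
  rw [SX, ent_eq (red_isHermitian _ h), mg, ← emb_fr _ _ (red_isHermitian _ h), trace_mul_emb]

lemma SX_congr {X : Finset ι} {ω ω' : Op d}
    (h : ∀ O, Supp X O → trace (O * ω) = trace (O * ω')) : SX X ω = SX X ω' := by
  rw [SX, SX, eq_red (e := sb X) (ω := ω') (r := red (sb X) ω) fun m => by
    rw [← trace_emb_mul, h _ (supp_lift X m)]]

lemma SX_E {X Y : Finset ι} (h : X ⊆ Y) (ω : Op d) : SX X (E Y ω) = SX X ω :=
  SX_congr fun _ hO => (hO.mono h).trace_mul_E ω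

lemma SX_conj {X : Finset ι} {U : Op d} (h : Supp Xᶜ U) (hU : Uᴴ * U = 1) (ω : Op d) :
    SX X (U * ω * Uᴴ) = SX X ω := by
  rw [SX, SX, red_conj_unitary (by rwa [rg_sb]) hU]

lemma ent_E (X : Finset ι) {ω : Op d} (h : ω.IsHermitian) :
    ent (E X ω) = SX X ω + Real.log (dim d Xᶜ) * (trace ω).re := by
  have hD := dim_pos_real (d := d) Xᶜ
  have : (dim d Xᶜ : ℂ)⁻¹ = (((dim d Xᶜ : ℝ)⁻¹ : ℝ) : ℂ) := by simp
  rw [E, this, ent_smul (mg_isHermitian X h), ent_mg X h, trace_mg, Real.negMulLog,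
    Real.log_inv, ← Complex.ofReal_natCast, Complex.re_ofReal_mul]
  field_simp

lemma SX_univ {ω : Op d} (h : ω.IsHermitian) : SX univ ω = ent ω := by
  have := ent_E univ h
  rw [E_univ] at this
  simp [this]

lemma SX_empty {ω : Op d} (h : ω.IsHermitian) : SX ∅ ω = Real.negMulLog (trace ω).re := by
  have hc : Fintype.card (Cfg (sub (sb (∅ : Finset ι)) d)) = 1 := by rw [card_sub_sb, dim_empty]
  obtain ⟨x, hx⟩ := Fintype.card_eq_one_iff.1 hc
  rw [← trace_red (sb ∅), re_trace_eq (red_isHermitian _ h), SX, ent,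
    Fintype.sum_eq_single x fun y hy => absurd (hx y) hy,
    Fintype.sum_eq_single x fun y hy => absurd (hx y) hy]

lemma Dens.SX_empty {ω : Op d} (h : Dens ω) : SX ∅ ω = 0 := by
  rw [Q.SX_empty h.herm, h.re_tr]; simp

lemma Dens.SX_nonneg {ω : Op d} (h : Dens ω) (X : Finset ι) : 0 ≤ SX X ω := (h.red _).ent_nonneg

lemma Dens.SX_le {ω : Op d} (h : Dens ω) (X : Finset ι) : SX X ω ≤ Real.log (dim d X) := by
  rw [← card_sub_sb]; exact (h.red _).ent_le

lemma ac_E (X : Finset ι) {ρ : Op d} (h : ρ.PosSemidef) : AC ρ (E X ρ) := by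
  refine ac_of_trace h (E_posSemidef X h) ?_
  have h1 : Supp X (kerP (E X ρ)) := by
    rw [kerP]; exact (supp_E X ρ).fc _ (E_isHermitian X h.1)
  rw [← h1.trace_mul_E, kerP_mul (E_isHermitian X h.1)]; simp

/-- monotonicity of the relative entropy under conditional expectations -/
theorem rel_E_le (X : Finset ι) {ρ σ : Op d} (hρ : ρ.PosSemidef) (hσ : σ.PosSemidef)
    (hac : AC ρ σ) : rel (E X ρ) (E X σ) ≤ rel ρ σ := by
  obtain ⟨G, _, _, U, hU, hE⟩ := exists_twirl (d := d) X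
  have hc : (0 : ℝ) < Fintype.card G := by exact_mod_cast Fintype.card_pos
  set c : ℂ := ((Real.sqrt (Fintype.card G)⁻¹ : ℝ) : ℂ) with hcd
  have hcc : c * star c = (Fintype.card G : ℂ)⁻¹ := by
    rw [hcd, Complex.star_def, Complex.conj_ofReal, ← Complex.ofReal_mul,
      Real.mul_self_sqrt (by positivity)]; simp
  have h1 : ∀ M, E X M = ∑ g, (c • U g) * M * (c • U g)ᴴ := by
    intro M
    simp only [hE, conjTranspose_smul, Matrix.smul_mul, Matrix.mul_smul, smul_smul,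
      ← Finset.smul_sum, mul_comm (star c), hcc]
  rw [h1, h1]
  refine rel_kraus_le ?_ hρ hσ hac
  simp only [conjTranspose_smul, Matrix.smul_mul, Matrix.mul_smul, smul_smul, hcc, (hU _).2.1,
    Finset.sum_const, card_univ]
  rw [← Nat.cast_smul_eq_nsmul ℂ, smul_smul, mul_inv_cancel₀ (by exact_mod_cast hc.ne'), one_smul]

lemma AC.red {ρ σ : Op d} (h : AC ρ σ) (hρ : ρ.PosSemidef) (hσ : σ.PosSemidef) (e : κ ↪ ι) :
    AC (red e ρ) (red e σ) := by
  refine ac_of_trace (red_posSemidef e hρ) (red_posSemidef e hσ) ?_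
  have hP1 := emb_isHermitian e (kerP_isHermitian (Q.red e σ))
  have hPP := kerP_mul_self (Q.red e σ)
  have h0 : (trace (emb e (kerP (Q.red e σ)) * σ)).re = 0 := by
    rw [trace_emb_mul, kerP_mul (red_isHermitian e hσ.1)]; simp
  set P := kerP (Q.red e σ) with hP
  have hP2 : emb e P * emb e P = emb e P := by rw [← map_mul, hPP]
  have h1 := proj_mul_eq_zero hP1 hP2 hσ h0
  rw [← trace_emb_mul, ← hP2, Matrix.mul_assoc, trace_mul_comm, ← Matrix.mul_one (_ * _),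
    ← fc_one ρ, trace_mul_fc, Complex.re_sum]
  refine Finset.sum_eq_zero fun i _ => ?_
  rw [one_mul, ap_mul, ap_mul, inner_ap_right, hP1.eq]
  refine h _ ?_
  rw [inner_ap_left, hP1.eq, ← ap_mul, ← ap_mul, h1]; simp

theorem rel_red_le (e : κ ↪ ι) {ρ σ : Op d} (hρ : ρ.PosSemidef) (hσ : σ.PosSemidef)
    (hac : AC ρ σ) : rel (red e ρ) (red e σ) ≤ rel ρ σ := by
  have h := rel_E_le (rg e) hρ hσ hac
  have hD := dim_pos_real (d := d) (rg e)ᶜ
  have : (dim d (rg e)ᶜ : ℂ)⁻¹ = (((dim d (rg e)ᶜ : ℝ)⁻¹ : ℝ) : ℂ) := by simp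
  rw [E, E, ← emb_red_eq_mg, ← emb_red_eq_mg, ← map_smul, ← map_smul, this,
    rel_emb _ (posSemidef_real_smul (by positivity) (red_posSemidef e hρ)).1
      (posSemidef_real_smul (by positivity) (red_posSemidef e hσ)).1,
    rel_smul (by positivity) (red_posSemidef e hρ) (red_isHermitian e hσ.1) (hac.red hρ hσ e),
    mul_inv_cancel_left₀ hD.ne'] at h
  exact h

lemma rel_E_E {Y Z : Finset ι} (h : Y ⊆ Z) {ω : Op d} (hω : ω.IsHermitian) :
    rel (E Z ω) (E Y ω) = SX Y ω - SX Z ω +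
      (Real.log (dim d Yᶜ) - Real.log (dim d Zᶜ)) * (trace ω).re := by
  have hL := (supp_E Y ω).fc (fun x => (Real.log x : ℂ)) (E_isHermitian Y hω)
  have h1 := ent_eq (E_isHermitian Y hω)
  rw [trace_mul_comm, hL.trace_mul_E, ent_E Y hω] at h1
  rw [rel, trace_mul_comm, (hL.mono h).trace_mul_E, ent_E Z hω]
  linarith

lemma ac_E_E {Y Z : Finset ι} (h : Y ⊆ Z) {ω : Op d} (hω : ω.PosSemidef) :
    AC (E Z ω) (E Y ω) := by
  have := ac_E Y (E_posSemidef Z hω)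
  rwa [E_E, inter_eq_left.2 h] at this

/-- **strong subadditivity** -/
theorem SX_submod (X Y : Finset ι) {ω : Op d} (hω : ω.PosSemidef) :
    SX (X ∪ Y) ω + SX (X ∩ Y) ω ≤ SX X ω + SX Y ω := by
  have h := rel_E_le Y (E_posSemidef (X ∪ Y) hω) (E_posSemidef X hω)
    (ac_E_E subset_union_left hω)
  rw [E_E, E_E, inter_eq_left.2 subset_union_right, inter_comm Y X,
    rel_E_E inter_subset_right hω.1, rel_E_E subset_union_left hω.1] at h
  have h1 : Real.log (dim d (X ∩ Y)ᶜ) + Real.log (dim d (X ∪ Y)ᶜ) =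
      Real.log (dim d Xᶜ) + Real.log (dim d Yᶜ) := by
    rw [← Real.log_mul (dim_pos_real _).ne' (dim_pos_real _).ne',
      ← Real.log_mul (dim_pos_real _).ne' (dim_pos_real _).ne', compl_union, compl_inter,
      ← Nat.cast_mul, ← Nat.cast_mul, dim_union_inter]
  have h2 : Real.log (dim d (X ∩ Y)ᶜ) - Real.log (dim d Yᶜ) =
      Real.log (dim d Xᶜ) - Real.log (dim d (X ∪ Y)ᶜ) := by linarith
  rw [h2] at h
  linarith

theorem Dens.SX_union_le {ω : Op d} (hω : Dens ω) (X Y : Finset ι) :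
    SX (X ∪ Y) ω ≤ SX X ω + SX Y ω := by
  have h1 := SX_submod X Y hω.psd
  have h2 := hω.SX_nonneg (X ∩ Y)
  linarith

/-- **concavity of the conditional entropy** (unnormalised form) -/
theorem cond_sum_le {K : Type*} (s : Finset K) {Y Z : Finset ι} (h : Y ⊆ Z) {ρ : K → Op d}
    (hρ : ∀ k ∈ s, (ρ k).PosSemidef) :
    ∑ k ∈ s, (SX Z (ρ k) - SX Y (ρ k)) ≤ SX Z (∑ k ∈ s, ρ k) - SX Y (∑ k ∈ s, ρ k) := by
  have h1 := rel_sum_le s (fun k hk => E_posSemidef Z (hρ k hk))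
    (fun k hk => E_posSemidef Y (hρ k hk)) fun k hk => ac_E_E h (hρ k hk)
  rw [← E_sum, ← E_sum, rel_E_E h (posSemidef_sum s hρ).1,
    Finset.sum_congr rfl fun k hk => rel_E_E h (hρ k hk).1, trace_sum, Complex.re_sum] at h1
  simp only [Finset.sum_add_distrib, Finset.sum_sub_distrib, ← Finset.mul_sum] at h1 ⊢
  linarith

lemma SX_smul (X : Finset ι) (c : ℝ) {ω : Op d} (h : ω.IsHermitian) :
    SX X ((c : ℂ) • ω) = c * SX X ω + Real.negMulLog c * (trace ω).re := by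
  rw [SX, red_smul, ent_smul (red_isHermitian _ h), trace_red, SX]

lemma SX_sum_le {K : Type*} (s : Finset K) (X : Finset ι) {ρ : K → Op d}
    (hρ : ∀ k ∈ s, (ρ k).PosSemidef) : SX X (∑ k ∈ s, ρ k) ≤ ∑ k ∈ s, SX X (ρ k) := by
  rw [SX, red_sum]; exact ent_sum_le s fun k hk => red_posSemidef _ (hρ k hk)

/-- concavity for mixtures of states -/
theorem cond_mix_le {K : Type*} (s : Finset K) {Y Z : Finset ι} (h : Y ⊆ Z) {p : K → ℝ}
    {ρ : K → Op d} (hp : ∀ k ∈ s, 0 ≤ p k) (hρ : ∀ k ∈ s, (ρ k).PosSemidef) :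
    ∑ k ∈ s, p k * (SX Z (ρ k) - SX Y (ρ k)) ≤
      SX Z (∑ k ∈ s, (p k : ℂ) • ρ k) - SX Y (∑ k ∈ s, (p k : ℂ) • ρ k) := by
  refine le_trans (le_of_eq ?_)
    (cond_sum_le s h fun k hk => posSemidef_real_smul (hp k hk) (hρ k hk))
  exact Finset.sum_congr rfl fun k hk => by
    rw [SX_smul _ _ (hρ k hk).1, SX_smul _ _ (hρ k hk).1]; ring

/-! ### pure states -/

/-- the complementary subsystem -/
def cs (e : κ ↪ ι) : {x // x ∉ rg e} ↪ ι := Function.Embedding.subtype _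

@[simp] lemma rg_cs (e : κ ↪ ι) : rg (cs e) = (rg e)ᶜ := by
  ext x
  rw [mem_compl, mem_rg (e := cs e)]
  exact ⟨by rintro ⟨k, rfl⟩; exact k.2, fun h => ⟨⟨x, h⟩, rfl⟩⟩

lemma emb_cs (e : κ ↪ ι) (m : Matrix (Rest (rg e) d) (Rest (rg e) d) ℂ) :
    emb (cs e) m = ((1 : Op (sub e d)) ⊗ₖ m).submatrix (eqv e d) (eqv e d) := by
  ext σ τ
  refine (emb_apply (cs e) m σ τ).trans ?_
  have : Agree (rg (cs e)) σ τ ↔ res e σ = res e τ := by
    rw [res_eq_iff, rg_cs]; simp [Agree, -mem_rg]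
  simp only [this, submatrix_apply, eqv_apply, kroneckerMap_apply, one_apply, ite_mul, one_mul,
    zero_mul]
  rfl

lemma red_cs (e : κ ↪ ι) (ω : Op d) : red (cs e) ω =
    Matrix.of fun c c' : Rest (rg e) d =>
      ∑ a, ω ((eqv e d).symm (a, c)) ((eqv e d).symm (a, c')) := by
  refine (eq_red (e := cs e) fun m => ?_).symm
  refine Eq.trans ?_ (congrArg (fun z => trace (z * ω)) (emb_cs e m).symm)
  revert m
  intro (m : Matrix (Rest (rg e) d) (Rest (rg e) d) ℂ)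
  change trace (m * Matrix.of fun c c' : Rest (rg e) d =>
      ∑ a, ω ((eqv e d).symm (a, c)) ((eqv e d).symm (a, c'))) = _
  rw [← trace_submatrix_equiv (eqv e d).symm, ← submatrix_mul_equiv _ _ _ (eqv e d).symm]
  simp only [submatrix_submatrix, Equiv.self_comp_symm, submatrix_id_id, trace, Matrix.diag,
    mul_apply, kroneckerMap_apply, Fintype.sum_prod_type, one_apply, ite_mul, one_mul, zero_mul,
    submatrix_apply, of_apply, Finset.mul_sum, Finset.sum_ite_irrel, Finset.sum_const_zero,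
    Finset.sum_ite_eq, mem_univ, if_true]
  rw [Finset.sum_comm (s := (univ : Finset (Cfg (sub e d))))]
  exact Finset.sum_congr rfl fun c _ => Finset.sum_comm

/-- a vector as a matrix (inside) × (outside) -/
noncomputable def vm (e : κ ↪ ι) (ψ : Vec (Cfg d)) : Matrix (Cfg (sub e d)) (Rest (rg e) d) ℂ :=
  Matrix.of fun a c => ψ ((eqv e d).symm (a, c))

lemma red_kb (e : κ ↪ ι) (ψ φ : Vec (Cfg d)) : red e (kb ψ φ) = vm e ψ * (vm e φ)ᴴ := rfl

lemma red_cs_kb (e : κ ↪ ι) (ψ φ : Vec (Cfg d)) :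
    red (cs e) (kb ψ φ) = ((vm e φ)ᴴ * vm e ψ)ᵀ := by
  rw [red_cs]
  ext c c'
  simp [mul_apply, vm, kb_apply, mul_comm]

/-- complementary marginals of a pure state have the same entropy -/
theorem SX_compl (X : Finset ι) (ψ : Vec (Cfg d)) : SX Xᶜ (pj ψ) = SX X (pj ψ) := by
  have h1 := ent_red (cs (sb X)) (pj_isHermitian ψ)
  have h2 : rg (cs (sb X)) = Xᶜ := by rw [rg_cs, rg_sb]
  rw [h2] at h1
  rw [← h1, SX, red_kb (sb X), ent_mul_conjTranspose,
    ← ent_transpose (isHermitian_conjTranspose_mul_self _)]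
  exact congrArg ent (red_cs_kb _ _ _)

lemma araki_lieb_pure {ψ : Vec (Cfg d)} (h : ‖ψ‖ = 1) {X Y : Finset ι} (hd : Disjoint X Y) :
    SX Y (pj ψ) ≤ SX (X ∪ Y) (pj ψ) + SX X (pj ψ) := by
  have h1 := (dens_pj h).SX_union_le (X ∪ Y)ᶜ X
  have h2 : (X ∪ Y)ᶜ ∪ X = Yᶜ := by
    ext x
    have : x ∈ X → x ∉ Y := fun h => Finset.disjoint_left.1 hd h
    simp; tauto
  rwa [h2, SX_compl, SX_compl] at h1

lemma SX_le_of_proj {X : Finset ι} {P : Op (sub (sb X) d)} (hP : P.IsHermitian) (h : P * P = P)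
    {r : ℝ} (hr : (trace P).re ≤ r) {ω : Op d} (hω : Dens ω) (h1 : lift X P * ω = ω) :
    SX X ω ≤ Real.log r :=
  ent_le_log_of_proj hP h (hω.red _) (by rw [← red_emb_mul, h1]) hr

lemma sum_ev_smul_pj {n : Type} [Fintype n] [DecidableEq n] {ω : Matrix n n ℂ}
    (h : ω.IsHermitian) : ∑ i, (ev ω i : ℂ) • pj (evec ω i) = ω :=
  (fc_eq_sum (fun x => (x : ℂ)) ω).symm.trans (fc_id h)

/-- conditional entropies are bounded by the logarithm of the rank -/
theorem abs_cond_le {X Y : Finset ι} (hd : Disjoint X Y) {P : Op (sub (sb X) d)}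
    (hP : P.IsHermitian) (h : P * P = P) {r : ℝ} (hr : (trace P).re ≤ r) {ω : Op d}
    (hω : Dens ω) (h1 : lift X P * ω = ω) : |SX (X ∪ Y) ω - SX Y ω| ≤ Real.log r := by
  rw [abs_le]
  constructor
  · have h2 := cond_mix_le univ (subset_union_right : Y ⊆ X ∪ Y) (p := ev ω)
      (ρ := fun i => pj (evec ω i)) (fun i _ => ev_nonneg hω.psd i) fun i _ => pj_posSemidef _
    rw [sum_ev_smul_pj hω.herm] at h2
    refine le_trans ?_ h2
    calc -Real.log r = ∑ i, ev ω i * (-Real.log r) := by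
          rw [← Finset.sum_mul, hω.sum_ev, one_mul]
      _ ≤ _ := Finset.sum_le_sum fun i _ => ?_
    rcases (ev_nonneg hω.psd i).eq_or_lt with h0 | h0
    · simp [← h0]
    refine mul_le_mul_of_nonneg_left ?_ h0.le
    have h3 : ap (lift X P) (evec ω i) = evec ω i := by
      have h4 := congrArg (fun M => ap M (evec ω i)) h1
      simp only [ap_mul, ap_evec hω.herm, map_smul] at h4
      exact smul_right_injective _ (by exact_mod_cast h0.ne') h4
    have h5 := SX_le_of_proj hP h hr (dens_pj (norm_evec ω i)) (by rw [pj, mul_kb, h3])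
    have h6 := araki_lieb_pure (norm_evec ω i) hd
    linarith
  · have h2 := hω.SX_union_le X Y
    have h3 := SX_le_of_proj hP h hr hω h1
    linarith

theorem abs_cond_le_dim {X Y : Finset ι} (hd : Disjoint X Y) {ω : Op d} (hω : Dens ω) :
    |SX (X ∪ Y) ω - SX Y ω| ≤ Real.log (dim d X) :=
  abs_cond_le hd isHermitian_one (Matrix.mul_one 1) (by simp [card_sub_sb, -Fintype.card_pi]) hω
    (by simp)

/-- the binary term of the continuity bound -/
noncomputable def bin (ε : ℝ) : ℝ := (1 + ε) * Real.log (1 + ε) - ε * Real.log ε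

lemma bin_le {ε : ℝ} (h0 : 0 ≤ ε) (h1 : ε ≤ 1) : bin ε ≤ 4 * Real.sqrt ε := by
  have hs := Real.sqrt_nonneg ε
  have hss := Real.mul_self_sqrt h0
  have hs1 : Real.sqrt ε ≤ 1 := Real.sqrt_le_one.2 h1
  have h2 : Real.log (1 + ε) ≤ ε := by
    have := Real.log_le_sub_one_of_pos (by linarith : 0 < 1 + ε); linarith
  have h3 : -(ε * Real.log ε) ≤ 2 * Real.sqrt ε := by
    rcases hs.eq_or_lt with h | h
    · rw [← h] at hss; simp [← hss]
    · have h4 := Real.log_le_sub_one_of_pos (inv_pos.2 h)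
      rw [Real.log_inv, Real.log_sqrt h0] at h4
      have h5 : ε * (Real.sqrt ε)⁻¹ = Real.sqrt ε := by field_simp; nlinarith
      nlinarith
  unfold bin
  nlinarith

/-- continuity of the conditional entropy, abstract form -/
theorem afw_abs {Y Z : Finset ι} (h : Y ⊆ Z) {ρ σ Δ Δ' : Op d} (hρ : Dens ρ) (hσ : Dens σ)
    (hΔ : Dens Δ) (hΔ' : Dens Δ') {ε : ℝ} (hε : 0 ≤ ε)
    (e : ρ + (ε : ℂ) • Δ' = σ + (ε : ℂ) • Δ) :
    (SX Z ρ - SX Y ρ) - (SX Z σ - SX Y σ) ≤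
      ε * ((SX Z Δ - SX Y Δ) - (SX Z Δ' - SX Y Δ')) + bin ε := by
  have p1 : ∀ k ∈ (univ : Finset (Fin 2)), (![ρ, (ε : ℂ) • Δ'] k).PosSemidef := by
    intro k _; fin_cases k; exacts [hρ.psd, posSemidef_real_smul hε hΔ'.psd]
  have p2 : ∀ k ∈ (univ : Finset (Fin 2)), (![σ, (ε : ℂ) • Δ] k).PosSemidef := by
    intro k _; fin_cases k; exacts [hσ.psd, posSemidef_real_smul hε hΔ.psd]
  have h1 := cond_sum_le univ h p1
  have h2 := SX_sum_le univ Z p2
  have h3 := cond_sum_le univ (empty_subset Y) p2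
  simp only [Fin.sum_univ_two, Matrix.cons_val_zero, Matrix.cons_val_one,
    SX_smul _ _ hΔ.herm, SX_smul _ _ hΔ'.herm, hΔ.re_tr, hΔ'.re_tr, hσ.SX_empty, hΔ.SX_empty]
    at h1 h2 h3
  rw [SX_empty (hσ.psd.add (posSemidef_real_smul hε hΔ.psd)).1, trace_add, trace_smul, hσ.tr,
    hΔ.tr] at h3
  rw [e] at h1
  simp only [smul_eq_mul, mul_one, Complex.add_re, Complex.one_re, Complex.ofReal_re,
    Real.negMulLog] at h1 h2 h3
  unfold bin
  nlinarith

/-- **Alicki-Fannes-Winter**, rank version -/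
theorem afw {X Y : Finset ι} (hd : Disjoint X Y) {P : Op (sub (sb X) d)} (hP : P.IsHermitian)
    (h : P * P = P) {r : ℝ} (hr : (trace P).re ≤ r) {ρ σ : Op d} (hρ : Dens ρ) (hσ : Dens σ)
    (h1 : lift X P * ρ = ρ) (h2 : lift X P * σ = σ) {ε : ℝ}
    (htd : ∀ O : Op d, Supp (X ∪ Y) O → O.IsHermitian → ‖O‖ ≤ 1 →
      (trace (O * ρ)).re - (trace (O * σ)).re ≤ 2 * ε) :
    (SX (X ∪ Y) ρ - SX Y ρ) - (SX (X ∪ Y) σ - SX Y σ) ≤ 2 * ε * Real.log r + bin ε := by
  obtain ⟨hε, Δ, Δ', hΔ, hΔ', e, hs⟩ := exists_jordan (hρ.E (X ∪ Y)) (hσ.E (X ∪ Y)) (ε := ε)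
    fun O hO hO1 => by
      rw [← trace_E_mul, ← trace_E_mul]
      exact htd _ (supp_E _ _) (E_isHermitian _ hO) ((norm_E_le _ _).trans hO1)
  have hPs := (supp_lift X P).mono (subset_union_left : X ⊆ X ∪ Y)
  obtain ⟨k1, k2⟩ := hs (lift X P) (by rw [← hPs.E_mul, h1]) (by rw [← hPs.E_mul, h2])
  have h3 := afw_abs (subset_union_right : Y ⊆ X ∪ Y) (hρ.E _) (hσ.E _) hΔ hΔ' hε e
  simp only [SX_E (Subset.refl _), SX_E (subset_union_right : Y ⊆ X ∪ Y)] at h3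
  have h4 := abs_le.1 (abs_cond_le hd hP h hr hΔ k1)
  have h5 := abs_le.1 (abs_cond_le hd hP h hr hΔ' k2)
  nlinarith [h4.2, h5.1]

theorem afw_dim {X Y : Finset ι} (hd : Disjoint X Y) {ρ σ : Op d} (hρ : Dens ρ) (hσ : Dens σ)
    {ε : ℝ} (htd : ∀ O : Op d, Supp (X ∪ Y) O → O.IsHermitian → ‖O‖ ≤ 1 →
      (trace (O * ρ)).re - (trace (O * σ)).re ≤ 2 * ε) :
    (SX (X ∪ Y) ρ - SX Y ρ) - (SX (X ∪ Y) σ - SX Y σ) ≤ 2 * ε * Real.log (dim d X) + bin ε :=
  afw hd isHermitian_one (Matrix.mul_one 1) (by simp [card_sub_sb, -Fintype.card_pi]) hρ hσ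
    (by simp) (by simp) htd

/-- trace distance of pure states -/
lemma re_inner_sub_le {n : Type} [Fintype n] [DecidableEq n] {ψ φ : Vec n} (h1 : ‖ψ‖ ≤ 1)
    (h2 : ‖φ‖ ≤ 1) {O : Matrix n n ℂ} (hO : ‖O‖ ≤ 1) :
    (trace (O * pj ψ)).re - (trace (O * pj φ)).re ≤ 2 * ‖ψ - φ‖ := by
  rw [trace_mul_kb, trace_mul_kb]
  have e : ⟪ψ, ap O ψ⟫_ℂ - ⟪φ, ap O φ⟫_ℂ = ⟪ψ - φ, ap O ψ⟫_ℂ + ⟪φ, ap O (ψ - φ)⟫_ℂ := by
    rw [inner_sub_left, map_sub, inner_sub_right]; ring
  rw [← Complex.sub_re, e, Complex.add_re]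
  have k1 := (Complex.re_le_norm _).trans (norm_inner_ap_le O (ψ - φ) ψ)
  have k2 := (Complex.re_le_norm _).trans (norm_inner_ap_le O φ (ψ - φ))
  have k3 : ‖O‖ * ‖ψ - φ‖ * ‖ψ‖ ≤ 1 * ‖ψ - φ‖ * 1 := by gcongr
  have k4 : ‖O‖ * ‖φ‖ * ‖ψ - φ‖ ≤ 1 * 1 * ‖ψ - φ‖ := by gcongr
  linarith

/-- bridge to the prelude -/
lemma entanglementEntropy_eq {q : ℕ} (Ω : Vec (Cfg fun _ : ι => Fin q)) (A : Finset ι) :
    Crest.MathPhysics.LatticeSpin.entanglementEntropy Ω A = ent (red (sb A) (pj Ω)) := by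
  rw [← reducedDensity_eq, Crest.MathPhysics.LatticeSpin.entanglementEntropy, ent, ev_eq]

end Crest.Agent.N336.Q
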