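import Mathlib

/-!
# Row 336, core: vectors, pure states, bipartite partial trace, unitary twirl (helper87)

* `ap M v` : a matrix acting on a Euclidean vector, `pj v = |v⟩⟨v|`
* `ptr M` : partial trace over the second factor of `α × β`
* `exists_twirl` : `ptr M ⊗ 1 / |β|` is an average of unitary conjugations by `1 ⊗ u`
-/

set_option autoImplicit false
set_option linter.unusedSectionVars false

open Matrix Finset
open scoped Kronecker ComplexOrder MatrixOrder Matrix.Norms.L2Operator InnerProductSpace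

namespace Crest.Agent.N336.Q

/-- Euclidean vectors -/
abbrev Vec (n : Type) := EuclideanSpace ℂ n

section vec

variable {n : Type} [Fintype n] [DecidableEq n]

/-- a matrix as a continuous linear map on Euclidean space -/
noncomputable abbrev ap (M : Matrix n n ℂ) : Vec n →L[ℂ] Vec n :=
  Matrix.toEuclideanCLM (𝕜 := ℂ) (n := n) M

lemma ofLp_ap (M : Matrix n n ℂ) (v : Vec n) : (ap M v).ofLp = M *ᵥ v.ofLp := rfl

lemma ap_apply (M : Matrix n n ℂ) (v : Vec n) (i : n) : ap M v i = ∑ j, M i j * v j := rfl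

lemma ap_mul (M N : Matrix n n ℂ) (v : Vec n) : ap (M * N) v = ap M (ap N v) := by
  simp only [ap, map_mul]; rfl

lemma ap_add (M N : Matrix n n ℂ) (v : Vec n) : ap (M + N) v = ap M v + ap N v := by
  simp only [ap, map_add]; rfl

lemma ap_sub (M N : Matrix n n ℂ) (v : Vec n) : ap (M - N) v = ap M v - ap N v := by
  simp only [ap, map_sub]; rfl

lemma ap_neg (M : Matrix n n ℂ) (v : Vec n) : ap (-M) v = - ap M v := by
  simp only [ap, map_neg]; rfl

lemma ap_smul (c : ℂ) (M : Matrix n n ℂ) (v : Vec n) : ap (c • M) v = c • ap M v := by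
  simp only [ap, map_smul]; rfl

@[simp] lemma ap_one (v : Vec n) : ap (1 : Matrix n n ℂ) v = v := by
  simp only [ap, map_one]; rfl

@[simp] lemma ap_zero (v : Vec n) : ap (0 : Matrix n n ℂ) v = 0 := by
  simp only [ap, map_zero]; rfl

lemma ap_sum {κ : Type*} (s : Finset κ) (M : κ → Matrix n n ℂ) (v : Vec n) :
    ap (∑ k ∈ s, M k) v = ∑ k ∈ s, ap (M k) v := by
  simp only [ap, map_sum, _root_.sum_apply]

lemma norm_ap (M : Matrix n n ℂ) : ‖ap M‖ = ‖M‖ := rfl

lemma norm_ap_le (M : Matrix n n ℂ) (v : Vec n) : ‖ap M v‖ ≤ ‖M‖ * ‖v‖ :=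
  (ap M).le_opNorm v

lemma ap_conjTranspose (M : Matrix n n ℂ) : ap Mᴴ = ContinuousLinearMap.adjoint (ap M) := by
  have := map_star (Matrix.toEuclideanCLM (𝕜 := ℂ) (n := n)) M
  exact this

lemma inner_ap_left (M : Matrix n n ℂ) (v w : Vec n) : ⟪ap M v, w⟫_ℂ = ⟪v, ap Mᴴ w⟫_ℂ := by
  rw [ap_conjTranspose, ContinuousLinearMap.adjoint_inner_right]

lemma inner_ap_right (M : Matrix n n ℂ) (v w : Vec n) : ⟪v, ap M w⟫_ℂ = ⟪ap Mᴴ v, w⟫_ℂ := by
  rw [ap_conjTranspose, ContinuousLinearMap.adjoint_inner_left]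

lemma inner_eq (v w : Vec n) : ⟪v, w⟫_ℂ = star v.ofLp ⬝ᵥ w.ofLp := by
  rw [EuclideanSpace.inner_eq_star_dotProduct, dotProduct_comm]

lemma inner_eq_sum (v w : Vec n) : ⟪v, w⟫_ℂ = ∑ i, star (v i) * w i := by
  rw [inner_eq]; rfl

lemma norm_ap_sq (M : Matrix n n ℂ) (v : Vec n) :
    ‖ap M v‖ ^ 2 = (⟪v, ap (Mᴴ * M) v⟫_ℂ).re := by
  rw [ap_mul, ← inner_ap_left, inner_self_eq_norm_sq_to_K]
  norm_cast

lemma norm_ap_unitary {U : Matrix n n ℂ} (hU : Uᴴ * U = 1) (v : Vec n) : ‖ap U v‖ = ‖v‖ := by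
  have h := norm_ap_sq U v
  rw [hU, ap_one, inner_self_eq_norm_sq_to_K] at h
  have h2 : ‖ap U v‖ ^ 2 = ‖v‖ ^ 2 := by rw [h]; norm_cast
  exact (pow_left_inj₀ (norm_nonneg _) (norm_nonneg _) two_ne_zero).1 h2

lemma norm_inner_ap_le (M : Matrix n n ℂ) (v w : Vec n) :
    ‖⟪v, ap M w⟫_ℂ‖ ≤ ‖M‖ * ‖v‖ * ‖w‖ := by
  calc ‖⟪v, ap M w⟫_ℂ‖ ≤ ‖v‖ * ‖ap M w‖ := norm_inner_le_norm _ _
    _ ≤ ‖v‖ * (‖M‖ * ‖w‖) := by gcongr; exact norm_ap_le _ _
    _ = _ := by ring

lemma re_inner_ap_nonneg {M : Matrix n n ℂ} (hM : M.PosSemidef) (v : Vec n) :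
    0 ≤ (⟪v, ap M v⟫_ℂ).re := by
  rw [inner_eq, ofLp_ap]
  exact hM.re_dotProduct_nonneg _

lemma re_inner_ap_mono {M N : Matrix n n ℂ} (h : M ≤ N) (v : Vec n) :
    (⟪v, ap M v⟫_ℂ).re ≤ (⟪v, ap N v⟫_ℂ).re := by
  have := re_inner_ap_nonneg (Matrix.le_iff.1 h) v
  rw [ap_sub, inner_sub_right, Complex.sub_re] at this
  linarith

lemma im_inner_ap {M : Matrix n n ℂ} (hM : M.IsHermitian) (v : Vec n) :
    (⟪v, ap M v⟫_ℂ).im = 0 := by
  have h : (starRingEnd ℂ) ⟪v, ap M v⟫_ℂ = ⟪v, ap M v⟫_ℂ := by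
    rw [inner_conj_symm, inner_ap_left, hM.eq]
  exact Complex.conj_eq_iff_im.1 h

/-- a Hermitian matrix with non-negative quadratic form is positive semidefinite -/
lemma posSemidef_of_re_inner {M : Matrix n n ℂ} (hM : M.IsHermitian)
    (h : ∀ v : Vec n, 0 ≤ (⟪v, ap M v⟫_ℂ).re) : M.PosSemidef := by
  refine Matrix.PosSemidef.of_dotProduct_mulVec_nonneg hM fun x => ?_
  have h1 := h (WithLp.toLp 2 x)
  have h2 := im_inner_ap hM (WithLp.toLp 2 x)
  rw [inner_eq, ofLp_ap] at h1 h2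
  exact Complex.le_def.2 ⟨h1, h2.symm⟩

/-- the rank one operator `|v⟩⟨w|` -/
noncomputable def kb (v w : Vec n) : Matrix n n ℂ := vecMulVec v.ofLp (star w.ofLp)

/-- the rank one operator `|v⟩⟨v|` -/
noncomputable abbrev pj (v : Vec n) : Matrix n n ℂ := kb v v

lemma kb_apply (v w : Vec n) (i j : n) : kb v w i j = v i * star (w j) := rfl

lemma kb_conjTranspose (v w : Vec n) : (kb v w)ᴴ = kb w v := by
  ext i j; simp [kb_apply, mul_comm]

lemma trace_mul_kb (M : Matrix n n ℂ) (v w : Vec n) : trace (M * kb v w) = ⟪w, ap M v⟫_ℂ := by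
  rw [inner_eq_sum]
  simp only [trace, Matrix.diag, mul_apply, kb_apply, ap_apply, Finset.mul_sum]
  refine Finset.sum_congr rfl fun i _ => Finset.sum_congr rfl fun j _ => by ring

lemma trace_kb_mul (M : Matrix n n ℂ) (v w : Vec n) : trace (kb v w * M) = ⟪w, ap M v⟫_ℂ := by
  rw [trace_mul_comm, trace_mul_kb]

lemma trace_kb (v w : Vec n) : trace (kb v w) = ⟪w, v⟫_ℂ := by
  have := trace_mul_kb 1 v w
  rwa [one_mul, ap_one] at this

lemma trace_pj (v : Vec n) : trace (pj v) = ((‖v‖ ^ 2 : ℝ) : ℂ) := by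
  rw [trace_kb, inner_self_eq_norm_sq_to_K]; norm_cast

lemma ap_kb (v w u : Vec n) : ap (kb v w) u = ⟪w, u⟫_ℂ • v := by
  ext i
  rw [ap_apply, inner_eq_sum]
  simp only [kb_apply, PiLp.smul_apply, smul_eq_mul, Finset.sum_mul]
  exact Finset.sum_congr rfl fun j _ => by ring

lemma mul_kb (M : Matrix n n ℂ) (v w : Vec n) : M * kb v w = kb (ap M v) w := by
  ext i j
  simp only [mul_apply, kb_apply, ap_apply, Finset.sum_mul]
  exact Finset.sum_congr rfl fun k _ => by ring

lemma kb_mul (M : Matrix n n ℂ) (v w : Vec n) : kb v w * M = kb v (ap Mᴴ w) := by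
  rw [← conjTranspose_conjTranspose (kb v w * M), conjTranspose_mul, kb_conjTranspose, mul_kb,
    kb_conjTranspose]

lemma pj_ap (M : Matrix n n ℂ) (v : Vec n) : pj (ap M v) = M * pj v * Mᴴ := by
  rw [pj, pj, mul_kb, kb_mul, conjTranspose_conjTranspose]

lemma kb_smul_left (c : ℂ) (v w : Vec n) : kb (c • v) w = c • kb v w := by
  ext i j; simp [kb_apply, mul_assoc]

lemma kb_smul_right (c : ℂ) (v w : Vec n) : kb v (c • w) = star c • kb v w := by
  ext i j; simp [kb_apply]; ring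

lemma kb_add_left (v v' w : Vec n) : kb (v + v') w = kb v w + kb v' w := by
  ext i j; simp [kb_apply, add_mul]

lemma kb_add_right (v w w' : Vec n) : kb v (w + w') = kb v w + kb v w' := by
  ext i j; simp [kb_apply, mul_add]

lemma kb_sub_left (v v' w : Vec n) : kb (v - v') w = kb v w - kb v' w := by
  ext i j; simp [kb_apply, sub_mul]

lemma kb_sub_right (v w w' : Vec n) : kb v (w - w') = kb v w - kb v w' := by
  ext i j; simp [kb_apply, mul_sub]

lemma pj_posSemidef (v : Vec n) : (pj v).PosSemidef := posSemidef_vecMulVec_self_star _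

lemma pj_isHermitian (v : Vec n) : (pj v).IsHermitian := (pj_posSemidef v).1

lemma norm_kb_le (v w : Vec n) : ‖kb v w‖ ≤ ‖v‖ * ‖w‖ := by
  rw [← norm_ap]
  refine ContinuousLinearMap.opNorm_le_bound _ (by positivity) fun u => ?_
  rw [ap_kb, norm_smul]
  calc ‖⟪w, u⟫_ℂ‖ * ‖v‖ ≤ ‖w‖ * ‖u‖ * ‖v‖ := by gcongr; exact norm_inner_le_norm _ _
    _ = _ := by ring

/-- entries are bounded by the operator norm -/
lemma norm_apply_le (M : Matrix n n ℂ) (i j : n) : ‖M i j‖ ≤ ‖M‖ := by
  have h := norm_inner_ap_le M (EuclideanSpace.single i 1) (EuclideanSpace.single j 1)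
  rw [EuclideanSpace.inner_single_left, ap_apply] at h
  simpa [Pi.single_apply] using h

/-- trace of a product of positive semidefinite matrices -/
lemma trace_mul_nonneg {A B : Matrix n n ℂ} (hA : A.PosSemidef) (hB : B.PosSemidef) :
    0 ≤ trace (A * B) := by
  obtain ⟨C, rfl⟩ := CStarAlgebra.nonneg_iff_eq_star_mul_self.1 hA.nonneg
  rw [star_eq_conjTranspose, Matrix.mul_assoc, trace_mul_comm]
  have := (hB.mul_mul_conjTranspose_same C).trace_nonneg
  simpa [Matrix.mul_assoc] using this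

lemma re_trace_mul_nonneg {A B : Matrix n n ℂ} (hA : A.PosSemidef) (hB : B.PosSemidef) :
    0 ≤ (trace (A * B)).re := (Complex.le_def.1 (trace_mul_nonneg hA hB)).1

lemma re_trace_mul_mono {A B C : Matrix n n ℂ} (h : A ≤ B) (hC : C.PosSemidef) :
    (trace (A * C)).re ≤ (trace (B * C)).re := by
  have := re_trace_mul_nonneg (Matrix.le_iff.1 h) hC
  rw [Matrix.sub_mul, trace_sub, Complex.sub_re] at this
  linarith

lemma im_trace_mul {A B : Matrix n n ℂ} (hA : A.IsHermitian) (hB : B.IsHermitian) :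
    (trace (A * B)).im = 0 := by
  have h : star (trace (A * B)) = trace (A * B) := by
    rw [← trace_conjTranspose, conjTranspose_mul, hA.eq, hB.eq, trace_mul_comm]
  exact Complex.conj_eq_iff_im.1 h

end vec

section bip

variable {α β : Type} [Fintype α] [DecidableEq α] [Fintype β] [DecidableEq β]

/-- partial trace over the second factor -/
def ptr (M : Matrix (α × β) (α × β) ℂ) : Matrix α α ℂ :=
  Matrix.of fun a b => ∑ c, M (a, c) (b, c)

lemma ptr_apply (M : Matrix (α × β) (α × β) ℂ) (a b : α) : ptr M a b = ∑ c, M (a, c) (b, c) := rfl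

lemma trace_kron_one_mul (m : Matrix α α ℂ) (M : Matrix (α × β) (α × β) ℂ) :
    trace ((m ⊗ₖ (1 : Matrix β β ℂ)) * M) = trace (m * ptr M) := by
  simp only [trace, Matrix.diag, mul_apply, kroneckerMap_apply, ptr_apply, Fintype.sum_prod_type,
    one_apply, mul_ite, mul_one, mul_zero, ite_mul, zero_mul, Finset.sum_ite_eq,
    Finset.mem_univ, if_true, Finset.mul_sum]
  refine Finset.sum_congr rfl fun a _ => ?_
  rw [Finset.sum_comm]

private lemma sum_sign (c c' : β) :
    ∑ s : β → Bool, ((if s c then -1 else 1) * (if s c' then -1 else 1) : ℂ) =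
      if c = c' then (Fintype.card (β → Bool) : ℂ) else 0 := by
  split_ifs with h
  · subst h
    rw [Finset.sum_congr rfl (g := fun _ => (1 : ℂ)) fun s _ => by split_ifs <;> simp]
    simp
  · let f : (β → Bool) ≃ (β → Bool) :=
      Function.Involutive.toPerm (fun s => Function.update s c (!s c)) fun s => by
        simp
    have h1 := Equiv.sum_comp f
      fun s : β → Bool => ((if s c then -1 else 1) * (if s c' then -1 else 1) : ℂ)
    have h2 : ∀ s : β → Bool, ((if f s c then -1 else 1) * (if f s c' then -1 else 1) : ℂ) =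
        -((if s c then -1 else 1) * (if s c' then -1 else 1)) := by
      intro s
      have e1 : f s c = !s c := by
        change Function.update s c (!s c) c = _
        simp
      have e2 : f s c' = s c' := by
        change Function.update s c (!s c) c' = _
        simp [Function.update_of_ne (Ne.symm h)]
      rw [e1, e2]
      cases s c <;> cases s c' <;> simp
    simp only [h2, Finset.sum_neg_distrib] at h1
    linear_combination (-1 / 2 : ℂ) * h1

private lemma sum_perm (F : β → ℂ) (c : β) :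
    (Fintype.card β : ℂ) * ∑ π : Equiv.Perm β, F (π c) =
      (Fintype.card (Equiv.Perm β) : ℂ) * ∑ c', F c' := by
  have h1 : ∀ c', ∑ π : Equiv.Perm β, F (π c) = ∑ π : Equiv.Perm β, F (π c') := by
    intro c'
    rw [← Equiv.sum_comp (Equiv.mulRight (Equiv.swap c c'))]
    simp
  calc (Fintype.card β : ℂ) * ∑ π : Equiv.Perm β, F (π c)
      = ∑ c' : β, ∑ π : Equiv.Perm β, F (π c') := by
        rw [← Finset.sum_congr rfl fun c' _ => h1 c']
        simp
    _ = ∑ π : Equiv.Perm β, ∑ c', F c' := by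
        rw [Finset.sum_comm]
        exact Finset.sum_congr rfl fun π _ => Equiv.sum_comp π F
    _ = _ := by simp

/-- signed permutation matrices -/
def sp (g : (β → Bool) × Equiv.Perm β) : Matrix β β ℂ :=
  Matrix.of fun c c' => if c' = g.2 c then (if g.1 c' then -1 else 1) else 0

lemma sp_mul_conjTranspose (g : (β → Bool) × Equiv.Perm β) : sp g * (sp g)ᴴ = 1 := by
  ext c c'
  simp only [mul_apply, conjTranspose_apply, sp, of_apply, ite_mul, zero_mul, Finset.sum_ite_eq',
    Finset.mem_univ, if_true, one_apply, EmbeddingLike.apply_eq_iff_eq]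
  by_cases h : c = c'
  · subst h; cases g.1 (g.2 c) <;> simp
  · simp [h]

/-- **twirl**: the normalised partial trace is an average of unitary conjugations -/
lemma twirl_eq (M : Matrix (α × β) (α × β) ℂ) :
    (Fintype.card β : ℂ) • ∑ g : (β → Bool) × Equiv.Perm β,
        ((1 : Matrix α α ℂ) ⊗ₖ sp g) * M * ((1 : Matrix α α ℂ) ⊗ₖ sp g)ᴴ =
      (Fintype.card ((β → Bool) × Equiv.Perm β) : ℂ) • (ptr M ⊗ₖ (1 : Matrix β β ℂ)) := by
  ext ⟨a, c⟩ ⟨b, c'⟩
  have key : ∀ g : (β → Bool) × Equiv.Perm β,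
      (((1 : Matrix α α ℂ) ⊗ₖ sp g) * M * ((1 : Matrix α α ℂ) ⊗ₖ sp g)ᴴ) (a, c) (b, c') =
        ((if g.1 (g.2 c) then -1 else 1) * (if g.1 (g.2 c') then -1 else 1)) *
          M (a, g.2 c) (b, g.2 c') := by
    intro g
    simp only [mul_apply, conjTranspose_apply, kroneckerMap_apply, one_apply, sp, of_apply,
      Fintype.sum_prod_type, ite_mul, one_mul, zero_mul, apply_ite star, star_zero, mul_ite,
      mul_zero, Finset.sum_ite_irrel, Finset.sum_const_zero, Finset.sum_ite_eq, Finset.sum_ite_eq',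
      Finset.mem_univ, if_true]
    cases g.1 (g.2 c) <;> cases g.1 (g.2 c') <;> simp
  simp only [Matrix.smul_apply, Matrix.sum_apply, key, smul_eq_mul, kroneckerMap_apply, ptr_apply,
    one_apply]
  rw [Fintype.sum_prod_type_right]
  simp only [← Finset.sum_mul, sum_sign, EmbeddingLike.apply_eq_iff_eq]
  split_ifs with h
  · subst h
    rw [← Finset.mul_sum, mul_left_comm, sum_perm (fun x => M (a, x) (b, x)) c, Fintype.card_prod]
    push_cast; ring
  · simp

end bip

end Crest.Agent.N336.Q
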