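import Crest.Agent.N336.Q.Spec

/-!
# Row 336, core: spin systems with site dependent local spaces (helper87)

* `Cfg d`, `Op d` ; `emb e m = m ⊗ 1` along an embedding of sites `e`, `red e ω` = partial trace
* `Supp X M` : `M` is supported on `X`;  `lift X = emb (sb X)`, `red (sb X)`
* `dim d X = ∏ x ∈ X, card (d x)`
-/

set_option autoImplicit false
set_option linter.unusedSectionVars false

open Matrix Finset
open scoped Kronecker ComplexOrder MatrixOrder Matrix.Norms.L2Operator InnerProductSpace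

namespace Crest.Agent.N336.Q

variable {ι κ μ : Type} [Fintype ι] [DecidableEq ι] [Fintype κ] [DecidableEq κ]
  [Fintype μ] [DecidableEq μ] {d : ι → Type} [∀ x, Fintype (d x)] [∀ x, DecidableEq (d x)]

/-- configurations -/
abbrev Cfg (d : ι → Type) : Type := ∀ x, d x

/-- operators -/
abbrev Op (d : ι → Type) : Type := Matrix (Cfg d) (Cfg d) ℂ

/-- `σ` and `τ` agree outside `X` -/
def Agree (X : Finset ι) (σ τ : Cfg d) : Prop := ∀ x, x ∉ X → σ x = τ x

instance (X : Finset ι) (σ τ : Cfg d) : Decidable (Agree X σ τ) := by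
  unfold Agree; infer_instance

lemma Agree.refl (X : Finset ι) (σ : Cfg d) : Agree X σ σ := fun _ _ => rfl

lemma Agree.symm {X : Finset ι} {σ τ : Cfg d} (h : Agree X σ τ) : Agree X τ σ :=
  fun x hx => (h x hx).symm

lemma Agree.trans {X : Finset ι} {σ τ υ : Cfg d} (h : Agree X σ τ) (h' : Agree X τ υ) :
    Agree X σ υ := fun x hx => (h x hx).trans (h' x hx)

lemma Agree.mono {X Y : Finset ι} {σ τ : Cfg d} (h : Agree X σ τ) (hXY : X ⊆ Y) : Agree Y σ τ :=
  fun x hx => h x fun h' => hx (hXY h')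

lemma agree_comm {X : Finset ι} {σ τ : Cfg d} : Agree X σ τ ↔ Agree X τ σ := ⟨.symm, .symm⟩

/-- range of an embedding of sites -/
def rg (e : κ ↪ ι) : Finset ι := univ.map e

@[simp] lemma mem_rg {e : κ ↪ ι} {x : ι} : x ∈ rg e ↔ ∃ k, e k = x := by simp [rg]

lemma apply_mem_rg (e : κ ↪ ι) (k : κ) : e k ∈ rg e := mem_rg.2 ⟨k, rfl⟩

lemma rg_trans (e' : μ ↪ κ) (e : κ ↪ ι) : rg (e'.trans e) = (rg e').map e := by
  simp [rg, Finset.map_map]

/-- local spaces of the subsystem -/
abbrev sub (e : κ ↪ ι) (d : ι → Type) : κ → Type := fun k => d (e k)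

/-- configurations outside `X` -/
abbrev Rest (X : Finset ι) (d : ι → Type) : Type := ∀ x : {x // x ∉ X}, d x

/-- restriction of a configuration -/
def res (e : κ ↪ ι) (σ : Cfg d) : Cfg (sub e d) := fun k => σ (e k)

/-- restriction to the complement -/
def off (X : Finset ι) (σ : Cfg d) : Rest X d := fun x => σ x

lemma off_eq_iff {X : Finset ι} {σ τ : Cfg d} : off X σ = off X τ ↔ Agree X σ τ :=
  ⟨fun h x hx => congrFun h ⟨x, hx⟩, fun h => funext fun x => h x x.2⟩

lemma res_eq_iff {e : κ ↪ ι} {σ τ : Cfg d} : res e σ = res e τ ↔ ∀ x ∈ rg e, σ x = τ x :=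
  ⟨fun h x hx => by obtain ⟨k, rfl⟩ := mem_rg.1 hx; exact congrFun h k,
    fun h => funext fun k => h _ (apply_mem_rg e k)⟩

/-- a configuration is a pair (inside, outside) -/
noncomputable def eqv (e : κ ↪ ι) (d : ι → Type) : Cfg d ≃ Cfg (sub e d) × Rest (rg e) d :=
  Equiv.ofBijective (fun σ => (res e σ, off (rg e) σ)) <| by
    constructor
    · intro σ τ h
      obtain ⟨h1, h2⟩ := Prod.mk.inj h
      funext x
      by_cases hx : x ∈ rg e
      · obtain ⟨k, rfl⟩ := mem_rg.1 hx; exact congrFun h1 k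
      · exact congrFun h2 ⟨x, hx⟩
    · rintro ⟨a, r⟩
      have : ∀ x, x ∈ rg e → ∃ y : d x, ∀ k (hk : e k = x), hk ▸ a k = y := by
        intro x hx
        obtain ⟨k0, rfl⟩ := mem_rg.1 hx
        refine ⟨a k0, fun k hk => ?_⟩
        obtain rfl := e.injective hk
        rfl
      choose y hy using this
      refine ⟨fun x => if h : x ∈ rg e then y x h else r ⟨x, h⟩, Prod.ext ?_ ?_⟩
      · funext k
        simp only [res, apply_mem_rg, dif_pos]
        exact (hy _ _ k rfl).symm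
      · funext x
        simp only [off, x.2, dif_neg, not_false_eq_true]

@[simp] lemma eqv_apply (e : κ ↪ ι) (σ : Cfg d) : eqv e d σ = (res e σ, off (rg e) σ) := rfl

@[simp] lemma res_symm (e : κ ↪ ι) (p : Cfg (sub e d) × Rest (rg e) d) :
    res e ((eqv e d).symm p) = p.1 := congrArg Prod.fst ((eqv e d).apply_symm_apply p)

@[simp] lemma off_symm (e : κ ↪ ι) (p : Cfg (sub e d) × Rest (rg e) d) :
    off (rg e) ((eqv e d).symm p) = p.2 := congrArg Prod.snd ((eqv e d).apply_symm_apply p)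

/-- `m ⊗ 1` -/
noncomputable def emb (e : κ ↪ ι) : Op (sub e d) →⋆ₐ[ℂ] Op d where
  toFun m := (m ⊗ₖ (1 : Matrix (Rest (rg e) d) (Rest (rg e) d) ℂ)).submatrix (eqv e d) (eqv e d)
  map_one' := by simp
  map_mul' a b := by
    rw [submatrix_mul_equiv, ← mul_kronecker_mul, Matrix.mul_one]
  map_zero' := by simp
  map_add' a b := by rw [add_kronecker]; rfl
  commutes' c := by
    simp only [Algebra.algebraMap_eq_smul_one, smul_kronecker, one_kronecker_one,
      submatrix_smul, Pi.smul_apply, submatrix_one_equiv]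
  map_star' a := by
    simp only [star_eq_conjTranspose, conjTranspose_submatrix, conjTranspose_kronecker,
      conjTranspose_one]

lemma emb_def (e : κ ↪ ι) (m : Op (sub e d)) : emb e m =
    (m ⊗ₖ (1 : Matrix (Rest (rg e) d) (Rest (rg e) d) ℂ)).submatrix (eqv e d) (eqv e d) := rfl

lemma emb_apply (e : κ ↪ ι) (m : Op (sub e d)) (σ τ : Cfg d) :
    emb e m σ τ = if Agree (rg e) σ τ then m (res e σ) (res e τ) else 0 := by
  simp only [emb_def, submatrix_apply, eqv_apply, kroneckerMap_apply, one_apply, off_eq_iff,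
    mul_ite, mul_one, mul_zero]

lemma emb_conjTranspose (e : κ ↪ ι) (m : Op (sub e d)) : emb e mᴴ = (emb e m)ᴴ := map_star _ _

lemma emb_isHermitian (e : κ ↪ ι) {m : Op (sub e d)} (h : m.IsHermitian) :
    (emb e m).IsHermitian := by
  unfold Matrix.IsHermitian; rw [← emb_conjTranspose, h.eq]

lemma emb_posSemidef (e : κ ↪ ι) {m : Op (sub e d)} (h : m.PosSemidef) :
    (emb e m).PosSemidef := (h.kronecker PosSemidef.one).submatrix _

lemma emb_posDef (e : κ ↪ ι) {m : Op (sub e d)} (h : m.PosDef) : (emb e m).PosDef :=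
  (h.kronecker PosDef.one).submatrix (eqv e d).injective

lemma emb_mono (e : κ ↪ ι) {a b : Op (sub e d)} (h : a ≤ b) : emb e a ≤ emb e b := by
  rw [Matrix.le_iff, ← map_sub]; exact emb_posSemidef e h

lemma norm_emb_le (e : κ ↪ ι) (m : Op (sub e d)) : ‖emb e m‖ ≤ ‖m‖ :=
  NonUnitalStarAlgHom.norm_apply_le (emb e) m

lemma emb_fc (e : κ ↪ ι) (f : ℝ → ℂ) {m : Op (sub e d)} (h : m.IsHermitian) :
    emb e (fc f m) = fc f (emb e m) :=
  map_fc (emb e).toAlgHom f h (emb_isHermitian e h)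

lemma trace_submatrix_equiv {n m : Type} [Fintype n] [Fintype m] (f : m ≃ n)
    (M : Matrix n n ℂ) : trace (M.submatrix f f) = trace M :=
  Equiv.sum_comp f fun i => M i i

lemma trace_emb (e : κ ↪ ι) (m : Op (sub e d)) :
    trace (emb e m) = (Fintype.card (Rest (rg e) d) : ℂ) * trace m := by
  rw [emb_def, trace_submatrix_equiv, trace_kronecker, trace_one, mul_comm]

lemma emb_emb (e' : μ ↪ κ) (e : κ ↪ ι) (m : Op (sub e' (sub e d))) :
    emb e (emb e' m) = emb (e'.trans e) m := by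
  ext σ τ
  refine (emb_apply _ _ _ _).trans (Eq.trans ?_ (emb_apply (e'.trans e) m σ τ).symm)
  rw [emb_apply]
  have : Agree (rg (e'.trans e)) σ τ ↔
      Agree (rg e) σ τ ∧ Agree (rg e') (res e σ) (res e τ) := by
    constructor
    · intro h
      refine ⟨h.mono (by rw [rg_trans]; intro x hx; simp at hx ⊢; tauto), fun k hk => h _ ?_⟩
      rw [rg_trans]; simpa using hk
    · rintro ⟨h1, h2⟩ x hx
      by_cases hx' : x ∈ rg e
      · obtain ⟨k, rfl⟩ := mem_rg.1 hx'
        exact h2 k (by rw [rg_trans] at hx; simpa using hx)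
      · exact h1 x hx'
  by_cases h1 : Agree (rg e) σ τ <;> by_cases h2 : Agree (rg e') (res e σ) (res e τ) <;>
    simp [this, h1, h2]
  rfl

/-- partial trace onto the subsystem -/
noncomputable def red (e : κ ↪ ι) (ω : Op d) : Op (sub e d) :=
  ptr (ω.submatrix (eqv e d).symm (eqv e d).symm)

lemma red_apply (e : κ ↪ ι) (ω : Op d) (a b : Cfg (sub e d)) :
    red e ω a b = ∑ c, ω ((eqv e d).symm (a, c)) ((eqv e d).symm (b, c)) := rfl

lemma trace_emb_mul (e : κ ↪ ι) (m : Op (sub e d)) (ω : Op d) :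
    trace (emb e m * ω) = trace (m * red e ω) := by
  rw [red, ← trace_kron_one_mul, emb_def, ← trace_submatrix_equiv (eqv e d).symm,
    ← submatrix_mul_equiv _ _ _ (eqv e d).symm]
  simp

lemma trace_mul_emb (e : κ ↪ ι) (m : Op (sub e d)) (ω : Op d) :
    trace (ω * emb e m) = trace (red e ω * m) := by
  rw [trace_mul_comm, trace_emb_mul, trace_mul_comm]

lemma eq_red {e : κ ↪ ι} {ω : Op d} {r : Op (sub e d)}
    (h : ∀ m, trace (m * r) = trace (emb e m * ω)) : r = red e ω :=
  Matrix.ext_iff_trace_mul_left.2 fun m => by rw [h, trace_emb_mul]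

lemma trace_red (e : κ ↪ ι) (ω : Op d) : trace (red e ω) = trace ω := by
  have := trace_emb_mul e 1 ω
  simpa using this.symm

lemma red_add (e : κ ↪ ι) (ω ω' : Op d) : red e (ω + ω') = red e ω + red e ω' := by
  ext a b; simp [red_apply, Finset.sum_add_distrib]

lemma red_sub (e : κ ↪ ι) (ω ω' : Op d) : red e (ω - ω') = red e ω - red e ω' := by
  ext a b; simp [red_apply, Finset.sum_sub_distrib]

lemma red_smul (e : κ ↪ ι) (c : ℂ) (ω : Op d) : red e (c • ω) = c • red e ω := by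
  ext a b; simp [red_apply, Finset.mul_sum]

@[simp] lemma red_zero (e : κ ↪ ι) : red e (0 : Op d) = 0 := by
  ext a b; simp [red_apply]

lemma red_sum {α : Type*} (e : κ ↪ ι) (s : Finset α) (ω : α → Op d) :
    red e (∑ k ∈ s, ω k) = ∑ k ∈ s, red e (ω k) := by
  ext a b; simp only [red_apply, Matrix.sum_apply]; rw [Finset.sum_comm]

lemma red_conjTranspose (e : κ ↪ ι) (ω : Op d) : red e ωᴴ = (red e ω)ᴴ := by
  ext a b; simp [red_apply]

lemma red_isHermitian (e : κ ↪ ι) {ω : Op d} (h : ω.IsHermitian) : (red e ω).IsHermitian := by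
  unfold Matrix.IsHermitian; rw [← red_conjTranspose, h.eq]

lemma red_posSemidef (e : κ ↪ ι) {ω : Op d} (h : ω.PosSemidef) : (red e ω).PosSemidef := by
  refine posSemidef_of_re_inner (red_isHermitian e h.1) fun v => ?_
  rw [← trace_kb_mul, ← trace_emb_mul]
  exact re_trace_mul_nonneg (emb_posSemidef e (pj_posSemidef v)) h

lemma red_mono (e : κ ↪ ι) {ω ω' : Op d} (h : ω ≤ ω') : red e ω ≤ red e ω' := by
  rw [Matrix.le_iff, ← red_sub]; exact red_posSemidef e h

lemma red_emb_mul (e : κ ↪ ι) (a : Op (sub e d)) (ω : Op d) :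
    red e (emb e a * ω) = a * red e ω :=
  (eq_red fun m => by rw [← Matrix.mul_assoc, ← trace_emb_mul, map_mul, Matrix.mul_assoc]).symm

lemma red_mul_emb (e : κ ↪ ι) (a : Op (sub e d)) (ω : Op d) :
    red e (ω * emb e a) = red e ω * a :=
  (eq_red fun m => by
    rw [← Matrix.mul_assoc, trace_mul_cycle, ← trace_emb_mul, map_mul, ← Matrix.mul_assoc,
      trace_mul_cycle (emb e m)]).symm

lemma red_red (e' : μ ↪ κ) (e : κ ↪ ι) (ω : Op d) :
    red (d := sub e d) e' (red e ω) = red (e'.trans e) ω :=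
  eq_red (e := e'.trans e) fun m => by
    have h1 := trace_emb_mul (d := sub e d) e' m (red e ω)
    have h2 := trace_emb_mul e (emb (d := sub e d) e' m) ω
    have h3 := emb_emb (d := d) e' e m
    exact h1.symm.trans (h2.symm.trans (congrArg (fun z => trace (z * ω)) h3))

/-! ### supports -/

/-- `M` is supported on `X` -/
structure Supp (X : Finset ι) (M : Op d) : Prop where
  zero : ∀ σ τ, ¬ Agree X σ τ → M σ τ = 0
  dep : ∀ σ τ σ' τ', Agree X σ τ → Agree X σ' τ' → (∀ x ∈ X, σ x = σ' x) →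
    (∀ x ∈ X, τ x = τ' x) → M σ τ = M σ' τ'

lemma supp_emb (e : κ ↪ ι) (m : Op (sub e d)) : Supp (rg e) (emb e m) where
  zero σ τ h := by rw [emb_apply, if_neg h]
  dep σ τ σ' τ' h h' h1 h2 := by
    rw [emb_apply, emb_apply, if_pos h, if_pos h', res_eq_iff.2 h1, res_eq_iff.2 h2]

lemma Supp.exists_emb {e : κ ↪ ι} {M : Op d} (h : Supp (rg e) M) : ∃ m, emb e m = M := by
  classical
  refine ⟨Matrix.of fun a b => if h : ∃ p : Cfg d × Cfg d, Agree (rg e) p.1 p.2 ∧ res e p.1 = a ∧
    res e p.2 = b then M h.choose.1 h.choose.2 else 0, ?_⟩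
  ext σ τ
  rw [emb_apply]
  split_ifs with h1
  · have hex : ∃ p : Cfg d × Cfg d, Agree (rg e) p.1 p.2 ∧ res e p.1 = res e σ ∧
      res e p.2 = res e τ := ⟨(σ, τ), h1, rfl, rfl⟩
    rw [of_apply, dif_pos hex]
    obtain ⟨h2, h3, h4⟩ := hex.choose_spec
    exact h.dep _ _ _ _ h2 h1 (res_eq_iff.1 h3) (res_eq_iff.1 h4)
  · exact (h.zero _ _ h1).symm

lemma Supp.mono {X Y : Finset ι} {M : Op d} (h : Supp X M) (hXY : X ⊆ Y) : Supp Y M where
  zero σ τ h1 := h.zero σ τ fun h2 => h1 (h2.mono hXY)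
  dep σ τ σ' τ' h1 h2 h3 h4 := by
    by_cases h5 : Agree X σ τ
    · refine h.dep _ _ _ _ h5 (fun x hx => ?_) (fun x hx => h3 x (hXY hx))
        fun x hx => h4 x (hXY hx)
      by_cases hy : x ∈ Y
      · rw [← h3 x hy, ← h4 x hy, h5 x hx]
      · exact h2 x hy
    · rw [h.zero _ _ h5, h.zero]
      intro h6
      refine h5 fun x hx => ?_
      by_cases hy : x ∈ Y
      · rw [h3 x hy, h4 x hy, h6 x hx]
      · exact h1 x hy

lemma supp_univ (M : Op d) : Supp univ M where
  zero σ τ h := absurd (fun x hx => absurd (mem_univ x) hx) h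
  dep σ τ σ' τ' _ _ h1 h2 := by
    rw [funext fun x => h1 x (mem_univ x), funext fun x => h2 x (mem_univ x)]

/-- the inclusion of a set of sites -/
def sb (X : Finset ι) : X ↪ ι := Function.Embedding.subtype (· ∈ X)

@[simp] lemma sb_apply (X : Finset ι) (x : X) : sb X x = x.1 := rfl

@[simp] lemma rg_sb (X : Finset ι) : rg (sb X) = X := by ext x; simp

/-- `m ⊗ 1` for `m` on `X` -/
noncomputable abbrev lift (X : Finset ι) : Op (sub (sb X) d) →⋆ₐ[ℂ] Op d := emb (sb X)

lemma supp_lift (X : Finset ι) (m : Op (sub (sb X) d)) : Supp X (lift X m) := by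
  have := supp_emb (sb X) m
  rwa [rg_sb] at this

lemma Supp.exists_lift {X : Finset ι} {M : Op d} (h : Supp X M) : ∃ m, lift X m = M :=
  Supp.exists_emb (by rwa [rg_sb])

lemma supp_iff {X : Finset ι} {M : Op d} : Supp X M ↔ ∃ m, lift X m = M :=
  ⟨Supp.exists_lift, by rintro ⟨m, rfl⟩; exact supp_lift X m⟩

lemma Supp.emb {Y : Finset κ} (e : κ ↪ ι) {m : Op (sub e d)} (h : Supp Y m) :
    Supp (Y.map e) (emb e m) := by
  obtain ⟨m', rfl⟩ := h.exists_lift
  rw [emb_emb (sb Y) e m']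
  have := supp_emb (d := d) ((sb Y).trans e) m'
  rwa [rg_trans, rg_sb] at this

/-- the algebra of operators supported on `X` -/
noncomputable def alg (X : Finset ι) : StarSubalgebra ℂ (Op d) := (lift X).range

lemma mem_alg {X : Finset ι} {M : Op d} : M ∈ alg (d := d) X ↔ Supp X M := by
  rw [supp_iff]; rfl

namespace Supp

variable {X Y : Finset ι} {M N : Op d}

lemma add (h : Supp X M) (h' : Supp X N) : Supp X (M + N) :=
  mem_alg.1 (add_mem (mem_alg.2 h) (mem_alg.2 h'))

lemma sub (h : Supp X M) (h' : Supp X N) : Supp X (M - N) :=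
  mem_alg.1 (sub_mem (mem_alg.2 h) (mem_alg.2 h'))

lemma neg (h : Supp X M) : Supp X (-M) := mem_alg.1 (neg_mem (mem_alg.2 h))

lemma mul (h : Supp X M) (h' : Supp X N) : Supp X (M * N) :=
  mem_alg.1 (mul_mem (mem_alg.2 h) (mem_alg.2 h'))

lemma smul (c : ℂ) (h : Supp X M) : Supp X (c • M) :=
  mem_alg.1 (SMulMemClass.smul_mem c (mem_alg.2 h))

lemma conjTranspose (h : Supp X M) : Supp X Mᴴ := mem_alg.1 (star_mem (mem_alg.2 h))

lemma one (X : Finset ι) : Supp X (1 : Op d) := mem_alg.1 (one_mem _)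

lemma zero' (X : Finset ι) : Supp X (0 : Op d) := mem_alg.1 (zero_mem _)

lemma sum {α : Type*} {s : Finset α} {F : α → Op d} (h : ∀ a ∈ s, Supp X (F a)) :
    Supp X (∑ a ∈ s, F a) := mem_alg.1 (sum_mem fun a ha => mem_alg.2 (h a ha))

lemma list_prod {l : List (Op d)} (h : ∀ a ∈ l, Supp X a) : Supp X l.prod :=
  mem_alg.1 (list_prod_mem fun a ha => mem_alg.2 (h a ha))

lemma pow (h : Supp X M) (k : ℕ) : Supp X (M ^ k) := mem_alg.1 (pow_mem (mem_alg.2 h) k)

lemma mul_union (h : Supp X M) (h' : Supp Y N) : Supp (X ∪ Y) (M * N) :=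
  (h.mono subset_union_left).mul (h'.mono subset_union_right)

lemma fc (h : Supp X M) (f : ℝ → ℂ) (hM : M.IsHermitian) : Supp X (fc f M) :=
  mem_alg.1 (fc_mem (alg X).toSubalgebra f hM (mem_alg.2 h))

lemma mul_apply_compl (h : Supp X M) (h' : Supp Xᶜ N) (σ τ : Cfg d) :
    (M * N) σ τ = M σ (X.piecewise τ σ) * N (X.piecewise τ σ) τ := by
  rw [mul_apply]
  refine Finset.sum_eq_single _ (fun υ _ hυ => ?_) (by simp)
  by_contra hne
  obtain ⟨h1, h2⟩ := mul_ne_zero_iff.1 hne
  refine hυ (funext fun x => ?_)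
  by_cases hx : x ∈ X
  · rw [piecewise_eq_of_mem _ _ _ hx]
    by_contra h3
    exact h2 (h'.zero _ _ fun h4 => h3 (h4 x (by simpa using hx)))
  · rw [piecewise_eq_of_notMem _ _ _ hx]
    by_contra h3
    exact h1 (h.zero _ _ fun h4 => h3 (h4 x hx).symm)

/-- operators with disjoint supports commute -/
theorem commute (h : Supp X M) (h' : Supp Y N) (hd : Disjoint X Y) : Commute M N := by
  have h1 : Supp Xᶜ N := h'.mono (le_compl_iff_disjoint_left.2 hd)
  have h2 : Supp Xᶜᶜ M := by rwa [compl_compl]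
  ext σ τ
  rw [h.mul_apply_compl h1, h1.mul_apply_compl h2, mul_comm, piecewise_compl]
  congr 1
  · refine h1.dep _ _ _ _ ?_ ?_ ?_ ?_ <;> intro x hx <;> simp only [mem_compl, not_not] at hx <;>
      simp [piecewise, hx]
  · refine h.dep _ _ _ _ ?_ ?_ ?_ ?_ <;> intro x hx <;> simp [piecewise, hx]

end Supp

/-- two embeddings which agree on the support -/
lemma emb_congr {q : Type} [Fintype q] [DecidableEq q] {Y : Finset κ} {e e' : κ ↪ ι}
    (he : ∀ k ∈ Y, e k = e' k) {m : Op (fun _ : κ => q)} (h : Supp Y m) :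
    emb (d := fun _ => q) e m = emb (d := fun _ => q) e' m := by
  obtain ⟨m', rfl⟩ := h.exists_lift
  have h1 := emb_emb (d := fun _ => q) (sb Y) e m'
  have h2 := emb_emb (d := fun _ => q) (sb Y) e' m'
  have h3 : (sb Y).trans e = (sb Y).trans e' := by ext k; exact he k k.2
  refine h1.trans (Eq.trans ?_ h2.symm)
  ext σ τ
  simp only [emb_apply, h3]
  have h4 : ∀ σ : Cfg (fun _ : ι => q), res ((sb Y).trans e) σ = res ((sb Y).trans e') σ := by
    intro σ; rw [h3]
  rw [h4, h4]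

/-! ### dimensions -/

/-- dimension of the space of `X` -/
def dim (d : ι → Type) [∀ x, Fintype (d x)] (X : Finset ι) : ℕ := ∏ x ∈ X, Fintype.card (d x)

lemma card_sub (e : κ ↪ ι) : Fintype.card (Cfg (sub e d)) = dim d (rg e) := by
  rw [Fintype.card_pi, dim, rg, Finset.prod_map]

lemma card_sub_sb (X : Finset ι) : Fintype.card (Cfg (sub (sb X) d)) = dim d X := by
  rw [card_sub, rg_sb]

lemma card_rest (X : Finset ι) : Fintype.card (Rest X d) = dim d Xᶜ := by
  rw [Fintype.card_pi, dim]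
  exact (Finset.prod_subtype Xᶜ (fun x => mem_compl) fun x => Fintype.card (d x)).symm

lemma card_cfg : Fintype.card (Cfg d) = dim d univ := by rw [Fintype.card_pi, dim]

lemma dim_union {X Y : Finset ι} (h : Disjoint X Y) : dim d (X ∪ Y) = dim d X * dim d Y :=
  Finset.prod_union h

lemma dim_mul_compl (X : Finset ι) : dim d X * dim d Xᶜ = dim d univ :=
  Finset.prod_mul_prod_compl _ _

lemma dim_union_inter (X Y : Finset ι) : dim d (X ∪ Y) * dim d (X ∩ Y) = dim d X * dim d Y :=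
  Finset.prod_union_inter

@[simp] lemma dim_empty : dim d ∅ = 1 := Finset.prod_empty

lemma dim_pos [∀ x, Nonempty (d x)] (X : Finset ι) : 0 < dim d X :=
  Finset.prod_pos fun _ _ => Fintype.card_pos

lemma dim_const (q : Type) [Fintype q] (X : Finset ι) :
    dim (fun _ : ι => q) X = Fintype.card q ^ X.card := by simp [dim]

lemma trace_lift (X : Finset ι) (m : Op (sub (sb X) d)) :
    trace (lift X m) = (dim d Xᶜ : ℂ) * trace m := by
  rw [trace_emb, card_rest, rg_sb]

lemma emb_injective [∀ x, Nonempty (d x)] (e : κ ↪ ι) :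
    Function.Injective (emb (d := d) e) := by
  intro a b h
  ext α β
  obtain ⟨c⟩ : Nonempty (Rest (rg e) d) := inferInstance
  have := congrFun (congrFun h ((eqv e d).symm (α, c))) ((eqv e d).symm (β, c))
  simpa [emb_def] using this

lemma norm_emb [∀ x, Nonempty (d x)] (e : κ ↪ ι) (m : Op (sub e d)) : ‖emb e m‖ = ‖m‖ :=
  NonUnitalStarAlgHom.norm_map (emb e) (emb_injective e) m

lemma isHermitian_of_emb [∀ x, Nonempty (d x)] {e : κ ↪ ι} {m : Op (sub e d)}
    (h : (emb e m).IsHermitian) : m.IsHermitian :=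
  emb_injective e (by rw [emb_conjTranspose, h.eq])

lemma red_emb (e : κ ↪ ι) (m : Op (sub e d)) : red e (emb e m) = (dim d (rg e)ᶜ : ℂ) • m :=
  (eq_red fun a => by
    rw [← map_mul, trace_emb, card_rest, Matrix.mul_smul, trace_smul, smul_eq_mul]).symm

lemma posSemidef_of_emb [∀ x, Nonempty (d x)] {e : κ ↪ ι} {m : Op (sub e d)}
    (h : (emb e m).PosSemidef) : m.PosSemidef := by
  have h1 := red_posSemidef e h
  rw [red_emb] at h1
  have h2 : (0 : ℝ) < dim d (rg e)ᶜ := by exact_mod_cast dim_pos _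
  have h3 := h1.smul (a := ((dim d (rg e)ᶜ : ℝ)⁻¹ : ℝ)) (by positivity)
  have h4 : ((dim d (rg e)ᶜ : ℝ)⁻¹ : ℝ) • ((dim d (rg e)ᶜ : ℂ) • m) = m := by
    rw [← Complex.coe_smul, smul_smul]
    have : (dim d (rg e)ᶜ : ℂ) ≠ 0 := by exact_mod_cast h2.ne'
    push_cast
    rw [inv_mul_cancel₀ this, one_smul]
  rwa [h4] at h3

end Crest.Agent.N336.Q
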